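import Vale.Agent.P112.H889.ShortMain

/-!
# P112: removal of the long scales by rescaling, part 4: the summation
-/

open MeasureTheory Set Filter Topology
open scoped ENNReal

set_option linter.dupNamespace false

namespace Vale.Agent.P112.H889

open Vale.Agent.P112.T Vale.Agent.P112.F30 Vale.Agent.P112.H694.BO

variable {M : ℕ}

/-- The support of a union of cells. -/
theorem supp_union_cell {g : ℝ × ℝ → ℝ} (hg : Nice g) (j0 : ℕ) (𝒲 : Finset ℕ) :
    volume.real (Function.support ((⋃ m ∈ 𝒲, cell j0 m).indicator g)) ≤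
      ∑ m ∈ 𝒲, volume.real (Function.support ((cell j0 m).indicator g)) := by
  have hfin : ∀ m : ℕ, volume (Function.support ((cell j0 m).indicator g)) ≠ ⊤ := by
    intro m
    rw [supp_ind]
    exact ne_top_of_le_ne_top (supp_fin hg).ne (measure_mono inter_subset_left)
  have h1 : Function.support ((⋃ m ∈ 𝒲, cell j0 m).indicator g) ⊆
      ⋃ m ∈ 𝒲, Function.support ((cell j0 m).indicator g) := by
    rw [supp_ind, inter_iUnion₂]
    refine iUnion₂_mono fun m _ => ?_
    rw [supp_ind]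
  calc volume.real (Function.support ((⋃ m ∈ 𝒲, cell j0 m).indicator g))
      ≤ volume.real (⋃ m ∈ 𝒲, Function.support ((cell j0 m).indicator g)) := by
        refine measureReal_mono h1 ?_
        refine (lt_of_le_of_lt (measure_biUnion_finset_le _ _) ?_).ne
        exact ENNReal.sum_lt_top.2 fun m _ => (hfin m).lt_top
    _ ≤ _ := measureReal_biUnion_finset_le _ _

/-- The support of a union of neighbourhoods. -/
theorem supp_union_nbr {f : ℝ × ℝ → ℝ} (hf : Nice f) (j0 : ℕ) (𝒲 : Finset ℕ) :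
    volume.real (Function.support ((⋃ m ∈ 𝒲, nbr j0 m).indicator f)) ≤
      ∑ m ∈ 𝒲, volume.real (Function.support ((nbr j0 m).indicator f)) := by
  have hfin : ∀ m : ℕ, volume (Function.support ((nbr j0 m).indicator f)) ≠ ⊤ := by
    intro m
    rw [supp_ind]
    exact ne_top_of_le_ne_top (supp_fin hf).ne (measure_mono inter_subset_left)
  have h1 : Function.support ((⋃ m ∈ 𝒲, nbr j0 m).indicator f) ⊆
      ⋃ m ∈ 𝒲, Function.support ((nbr j0 m).indicator f) := by
    rw [supp_ind, inter_iUnion₂]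
    refine iUnion₂_mono fun m _ => ?_
    rw [supp_ind]
  calc volume.real (Function.support ((⋃ m ∈ 𝒲, nbr j0 m).indicator f))
      ≤ volume.real (⋃ m ∈ 𝒲, Function.support ((nbr j0 m).indicator f)) := by
        refine measureReal_mono h1 ?_
        refine (lt_of_le_of_lt (measure_biUnion_finset_le _ _) ?_).ne
        exact ENNReal.sum_lt_top.2 fun m _ => (hfin m).lt_top
    _ ≤ _ := measureReal_biUnion_finset_le _ _

theorem supp_ind_le {f : ℝ × ℝ → ℝ} (hf : Nice f) (W : Set (ℝ × ℝ)) :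
    volume.real (Function.support (W.indicator f)) ≤ volume.real (Function.support f) := by
  rw [supp_ind]
  exact measureReal_mono inter_subset_left (supp_fin hf).ne

/-- Cauchy-Schwarz for finite sums of square roots. -/
theorem cs_sum (s : Finset ℕ) {a b : ℕ → ℝ} (ha : ∀ m, 0 ≤ a m) (hb : ∀ m, 0 ≤ b m) {S T : ℝ}
    (hS : ∑ m ∈ s, a m ≤ S) (hT : ∑ m ∈ s, b m ≤ T) :
    ∑ m ∈ s, √(a m) * √(b m) ≤ √S * √T := by
  refine (Real.sum_sqrt_mul_sqrt_le s ha hb).trans ?_
  gcongr

/-- The form is the sum of the long scales and of the cells. -/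
theorem form_split (κ : Ker M) {u : ℝ × ℝ → ℝ} (hu : Field u) {n : ℕ} (j0 : ℕ)
    {P : ℕ → Set (ℝ × ℝ)} {f g : ℝ × ℝ → ℝ} (hf : Nice f) (hg : Nice g) (hP : PSys n P)
    (hPE : ∀ j, P j ⊆ {z | g z ≠ 0}) (hst : ∀ z, g z ≠ 0 → z.1 ∈ Ico (0 : ℝ) 1) :
    ∫ ζ, f ζ * κ.FS u g P n ζ = ∑ j ∈ Finset.range j0, (∫ z in P j, g z * κ.T u j f z) +
      Bf κ u n j0 P f g (Finset.range (2 ^ j0)) := by
  rw [int_f_FS κ hu hf hg hP.meas, sum_ext_range (n := n) (j0 := j0)]
  · congr 1
    unfold Bf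
    refine Finset.sum_congr rfl fun i _ => ?_
    rw [← int_cells (integrable_gT κ hu (j0 + i) hf hg) j0 _ (hP.meas _)]
    congr 2
    symm
    rw [inter_eq_left]
    intro z hz
    have hz1 := hst z (hPE _ hz)
    rw [mem_iUnion₂]
    have h2 : (0:ℝ) < 2 ^ j0 := by positivity
    refine ⟨(⌊2 ^ j0 * z.1⌋).toNat, ?_, ?_⟩
    · rw [Finset.mem_range]
      have h3 : ⌊2 ^ j0 * z.1⌋ < (2:ℤ) ^ j0 := by
        rw [Int.floor_lt]
        push_cast
        calc (2:ℝ) ^ j0 * z.1 < 2 ^ j0 * 1 := by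
              apply mul_lt_mul_of_pos_left hz1.2 h2
          _ = 2 ^ j0 := mul_one _
      have h4 : 0 ≤ ⌊2 ^ j0 * z.1⌋ := Int.floor_nonneg.2 (mul_nonneg h2.le hz1.1)
      have h5 : (((⌊2 ^ j0 * z.1⌋).toNat : ℕ) : ℤ) < ((2 ^ j0 : ℕ) : ℤ) := by
        rw [Int.toNat_of_nonneg h4]; push_cast; exact h3
      exact_mod_cast h5
    · show ⌊2 ^ j0 * z.1⌋ = (((⌊2 ^ j0 * z.1⌋).toNat : ℕ) : ℤ)
      have h4 : 0 ≤ ⌊2 ^ j0 * z.1⌋ := Int.floor_nonneg.2 (mul_nonneg h2.le hz1.1)
      rw [Int.toNat_of_nonneg h4]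
  · intro j hj
    rw [hP.lt j hj]
    simp

/-- **Removal of the long scales**: all systems. -/
theorem gen_of (hM : 8 ≤ M) {κ : Ker M} (h : StGt κ) : ∀ B : ℕ, ∃ C : ℝ, 1 ≤ C ∧
    ∀ (u : ℝ × ℝ → ℝ), Field u → (∀ x y y', |u (x, y) - u (x, y')| ≤ 1 * |y - y'|) →
    ∀ (n : ℕ) (P : ℕ → Set (ℝ × ℝ)) (f g : ℝ × ℝ → ℝ), Nice f → Nice g →
    (∀ z, |f z| ≤ 1) → (∀ z, |g z| ≤ 1) →
    (∀ z, f z ≠ 0 → 1 / 2 ≤ |f z|) → (∀ z, g z ≠ 0 → 1 / 2 ≤ |g z|) →
    (∀ z, g z ≠ 0 → z.1 ∈ Ico (0 : ℝ) 1) →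
    0 < volume {z | f z ≠ 0} → 0 < volume {z | g z ≠ 0} →
    PSys n P → (∀ j, P j ⊆ {z | g z ≠ 0}) →
    ∀ L : ℝ, L = Real.log ((volume {z | g z ≠ 0}).toReal / (volume {z | f z ≠ 0}).toReal) →
    C ≤ L →
      |∫ ζ, f ζ * κ.FS u g P n ζ| * L ^ B ≤
        C * √((volume {z | f z ≠ 0}).toReal) * √((volume {z | g z ≠ 0}).toReal) := by
  intro B
  obtain ⟨A, CG, hCG, hG⟩ := h B
  obtain ⟨C0, hC0, hR⟩ := r0P hM κ
  obtain ⟨D, hD, hone⟩ := one_scale κ
  set K1 : ℝ := 3 * 2 ^ A * D * (4 ^ (A + B) * ((A + B).factorial : ℝ)) with hK1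
  set K2 : ℝ := √(3 * C0) * (4 ^ B * (B.factorial : ℝ)) with hK2
  set K3 : ℝ := √C0 * (4 ^ B * (B.factorial : ℝ)) with hK3
  set K4 : ℝ := CG * 2 ^ B * √3 with hK4
  have hK1' : 0 ≤ K1 := by positivity
  have hK2' : 0 ≤ K2 := by positivity
  have hK3' : 0 ≤ K3 := by positivity
  have hK4' : 0 ≤ K4 := by positivity
  refine ⟨2 * CG + (K1 + K2 + K3 + K4), by linarith, ?_⟩
  intro u hu hlip n P f g hf hg hf1 hg1 hf2 hg2 hst hfp hgp hP hPE L hL hCL
  have hL2 : 2 * CG ≤ L := by linarith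
  have hL1 : 1 ≤ L := by linarith
  have hL0 : 0 < L := by linarith
  obtain ⟨j0, hj0, hj0'⟩ := exists_j0 A hL1
  -- the masses
  set VF : ℝ := volume.real (Function.support f) with hVF
  set VE : ℝ := volume.real (Function.support g) with hVE
  have hVFp : 0 < VF := real_pos hf hfp
  have hVEp : 0 < VE := real_pos hg hgp
  have hVF' : (volume {z | f z ≠ 0}).toReal = VF := rfl
  have hVE' : (volume {z | g z ≠ 0}).toReal = VE := rfl
  rw [hVF', hVE'] at hL ⊢
  have hq : 0 < VE / VF := div_pos hVEp hVFp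
  have hexp : VE = Real.exp L * VF := by
    rw [hL, Real.exp_log hq]; field_simp
  have hexp' : VF = Real.exp (-L) * VE := by
    rw [hexp, ← mul_assoc, ← Real.exp_add]; simp
  set X : ℝ := √VF * √VE with hX
  have hX0 : 0 ≤ X := by positivity
  have hsq : √VF = Real.exp (-(L / 2)) * √VE := by
    have e1 : Real.exp (-L) = Real.exp (-(L / 2)) ^ 2 := by
      rw [sq, ← Real.exp_add]; congr 1; ring
    rw [hexp', Real.sqrt_mul (Real.exp_pos _).le, e1, Real.sqrt_sq (Real.exp_pos _).le]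
  have hVFX : VF = Real.exp (-(L / 2)) * X := by
    calc VF = √VF * √VF := (Real.mul_self_sqrt hVFp.le).symm
      _ = √VF * (Real.exp (-(L / 2)) * √VE) := by rw [← hsq]
      _ = Real.exp (-(L / 2)) * X := by rw [hX]; ring
  -- the cells
  set fm : ℕ → ℝ := fun m => volume.real (Function.support ((nbr j0 m).indicator f)) with hfm
  set em : ℕ → ℝ := fun m => volume.real (Function.support ((cell j0 m).indicator g)) with hem
  have hfm0 : ∀ m, 0 ≤ fm m := fun m => measureReal_nonneg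
  have hem0 : ∀ m, 0 ≤ em m := fun m => measureReal_nonneg
  set R : Finset ℕ := Finset.range (2 ^ j0) with hRdef
  set W1 : Finset ℕ := R.filter fun m => Real.exp (-(L / 2)) * em m ≤ fm m with hW1
  set W1c : Finset ℕ := R.filter fun m => ¬ Real.exp (-(L / 2)) * em m ≤ fm m with hW1c
  set W2 : Finset ℕ := W1c.filter fun m => fm m < Real.exp (-(2 * L)) * em m with hW2
  set W3 : Finset ℕ := W1c.filter fun m => ¬ fm m < Real.exp (-(2 * L)) * em m with hW3
  have hsplit : Bf κ u n j0 P f g R = Bf κ u n j0 P f g W1 + Bf κ u n j0 P f g W2 +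
      ∑ m ∈ W3, Bf κ u n j0 P f g {m} := by
    rw [Bf_single κ u n j0 P f g R, Bf_single κ u n j0 P f g W1, Bf_single κ u n j0 P f g W2,
      ← Finset.sum_filter_add_sum_filter_not R
        (fun m => Real.exp (-(L / 2)) * em m ≤ fm m),
      ← Finset.sum_filter_add_sum_filter_not W1c
        (fun m => fm m < Real.exp (-(2 * L)) * em m), add_assoc]
  have hRf := sum_nbr_le hf j0 R
  -- bad cells of the first kind
  have hB1 : |Bf κ u n j0 P f g W1| ≤ √(3 * C0) * Real.exp (-(L / 4)) * X := by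
    have h1 := Bf_le hC0 hR hu j0 hf hg hf1 hg1 hP hPE W1
    have h2 : volume.real (Function.support ((⋃ m ∈ W1, cell j0 m).indicator g)) ≤
        3 * Real.exp (-(L / 2)) * VE := by
      refine (supp_union_cell hg j0 W1).trans ?_
      have h3 : ∀ m ∈ W1, em m ≤ Real.exp (L / 2) * fm m := by
        intro m hm
        have h4 := (Finset.mem_filter.1 hm).2
        calc em m = Real.exp (L / 2) * (Real.exp (-(L / 2)) * em m) := by
              rw [← mul_assoc, ← Real.exp_add]; simp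
          _ ≤ Real.exp (L / 2) * fm m := by gcongr
      calc ∑ m ∈ W1, em m ≤ ∑ m ∈ W1, Real.exp (L / 2) * fm m := Finset.sum_le_sum h3
        _ = Real.exp (L / 2) * ∑ m ∈ W1, fm m := by rw [Finset.mul_sum]
        _ ≤ Real.exp (L / 2) * (3 * VF) := by
            gcongr
            exact sum_nbr_le hf j0 W1
        _ = 3 * Real.exp (-(L / 2)) * VE := by
            rw [hexp']
            have e1 : Real.exp (L / 2) * Real.exp (-L) = Real.exp (-(L / 2)) := by
              rw [← Real.exp_add]; congr 1; ring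
            calc Real.exp (L / 2) * (3 * (Real.exp (-L) * VE))
                = 3 * (Real.exp (L / 2) * Real.exp (-L)) * VE := by ring
              _ = _ := by rw [e1]
    have h3 : volume.real (Function.support ((⋃ m ∈ W1, nbr j0 m).indicator f)) ≤ VF :=
      supp_ind_le hf _
    refine h1.trans ?_
    have e4 : Real.exp (-(L / 2)) = Real.exp (-(L / 4)) ^ 2 := by
      rw [sq, ← Real.exp_add]; congr 1; ring
    calc √(volume.real (Function.support ((⋃ m ∈ W1, nbr j0 m).indicator f))) *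
        √(C0 * volume.real (Function.support ((⋃ m ∈ W1, cell j0 m).indicator g)))
        ≤ √VF * √(C0 * (3 * Real.exp (-(L / 2)) * VE)) := by gcongr
      _ = √VF * √((3 * C0) * (Real.exp (-(L / 4)) ^ 2 * VE)) := by
          rw [e4]; congr 2; ring
      _ = √VF * (√(3 * C0) * (Real.exp (-(L / 4)) * √VE)) := by
          rw [Real.sqrt_mul (x := 3 * C0) (by positivity),
            Real.sqrt_mul (x := Real.exp (-(L / 4)) ^ 2) (by positivity),
            Real.sqrt_sq (Real.exp_pos _).le]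
      _ = √(3 * C0) * Real.exp (-(L / 4)) * X := by rw [hX]; ring
  -- bad cells of the second kind
  have hB2 : |Bf κ u n j0 P f g W2| ≤ √C0 * Real.exp (-(L / 4)) * X := by
    have h1 := Bf_le hC0 hR hu j0 hf hg hf1 hg1 hP hPE W2
    have h2 : volume.real (Function.support ((⋃ m ∈ W2, nbr j0 m).indicator f)) ≤
        Real.exp (-L) ^ 2 * VE := by
      refine (supp_union_nbr hf j0 W2).trans ?_
      calc ∑ m ∈ W2, fm m ≤ ∑ m ∈ W2, Real.exp (-(2 * L)) * em m :=
            Finset.sum_le_sum fun m hm => (Finset.mem_filter.1 hm).2.le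
        _ = Real.exp (-(2 * L)) * ∑ m ∈ W2, em m := by rw [Finset.mul_sum]
        _ ≤ Real.exp (-(2 * L)) * VE := by
            gcongr
            exact sum_cell_le hg j0 W2
        _ = Real.exp (-L) ^ 2 * VE := by
            congr 1
            rw [sq, ← Real.exp_add]; congr 1; ring
    have h3 : volume.real (Function.support ((⋃ m ∈ W2, cell j0 m).indicator g)) ≤ VE :=
      supp_ind_le hg _
    refine h1.trans ?_
    calc √(volume.real (Function.support ((⋃ m ∈ W2, nbr j0 m).indicator f))) *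
        √(C0 * volume.real (Function.support ((⋃ m ∈ W2, cell j0 m).indicator g)))
        ≤ √(Real.exp (-L) ^ 2 * VE) * √(C0 * VE) := by gcongr
      _ = Real.exp (-L) * √VE * (√C0 * √VE) := by
          rw [Real.sqrt_mul (by positivity), Real.sqrt_sq (Real.exp_pos _).le,
            Real.sqrt_mul hC0.le]
      _ = √C0 * (Real.exp (-L) * (√VE * √VE)) := by ring
      _ = √C0 * VF := by rw [Real.mul_self_sqrt hVEp.le, ← hexp']
      _ = √C0 * (Real.exp (-(L / 2)) * X) := by rw [← hVFX]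
      _ ≤ √C0 * (Real.exp (-(L / 4)) * X) := by
          gcongr
          linarith
      _ = _ := by ring
  -- good cells
  have hB3 : |∑ m ∈ W3, Bf κ u n j0 P f g {m}| ≤ CG * 2 ^ B / L ^ B * (√3 * X) := by
    refine (Finset.abs_sum_le_sum_abs _ _).trans ?_
    calc ∑ m ∈ W3, |Bf κ u n j0 P f g {m}|
        ≤ ∑ m ∈ W3, CG * 2 ^ B / L ^ B * (√(fm m) * √(em m)) := by
          apply Finset.sum_le_sum
          intro m hm
          have h1 := (Finset.mem_filter.1 hm).2
          have h2 := (Finset.mem_filter.1 (Finset.mem_filter.1 hm).1).2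
          exact good_cell hCG hG hu hlip j0 m hf hg hf1 hg1 hf2 hg2 hP hPE hL2 hj0
            (not_le.1 h2) (not_lt.1 h1)
      _ = CG * 2 ^ B / L ^ B * ∑ m ∈ W3, √(fm m) * √(em m) := by rw [Finset.mul_sum]
      _ ≤ CG * 2 ^ B / L ^ B * (√(3 * VF) * √VE) := by
          gcongr
          exact cs_sum W3 hfm0 hem0 (sum_nbr_le hf j0 W3) (sum_cell_le hg j0 W3)
      _ = CG * 2 ^ B / L ^ B * (√3 * X) := by
          rw [Real.sqrt_mul (by norm_num), hX]; ring
  -- long scales
  have hlong : |∑ j ∈ Finset.range j0, (∫ z in P j, g z * κ.T u j f z)| ≤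
      3 * (2 * L) ^ A * (D * (Real.exp (-(L / 4)) * X)) := by
    refine (Finset.abs_sum_le_sum_abs _ _).trans ?_
    calc ∑ j ∈ Finset.range j0, |∫ z in P j, g z * κ.T u j f z|
        ≤ ∑ j ∈ Finset.range j0, D * VF :=
          Finset.sum_le_sum fun j _ => hone u hu hlip j f g hf hg hf1 hg1 (P j) (hP.meas j)
      _ = j0 * (D * VF) := by rw [Finset.sum_const, Finset.card_range, nsmul_eq_mul]
      _ ≤ 3 * (2 * L) ^ A * (D * (Real.exp (-(L / 2)) * X)) := by
          rw [← hVFX]; gcongr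
      _ ≤ 3 * (2 * L) ^ A * (D * (Real.exp (-(L / 4)) * X)) := by
          gcongr
          linarith
  rw [form_split κ hu j0 hf hg hP hPE hst, hsplit]
  have htot : |∑ j ∈ Finset.range j0, (∫ z in P j, g z * κ.T u j f z) +
      (Bf κ u n j0 P f g W1 + Bf κ u n j0 P f g W2 + ∑ m ∈ W3, Bf κ u n j0 P f g {m})| ≤
      3 * (2 * L) ^ A * (D * (Real.exp (-(L / 4)) * X)) +
      (√(3 * C0) * Real.exp (-(L / 4)) * X + √C0 * Real.exp (-(L / 4)) * X +
        CG * 2 ^ B / L ^ B * (√3 * X)) := by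
    refine (abs_add_le _ _).trans (add_le_add hlong ?_)
    refine (abs_add_le _ _).trans (add_le_add ?_ hB3)
    exact (abs_add_le _ _).trans (add_le_add hB1 hB2)
  have hAB := pow_exp_le (A + B) hL0.le
  have hBB := pow_exp_le B hL0.le
  have hLB : 0 < L ^ B := by positivity
  calc |∑ j ∈ Finset.range j0, (∫ z in P j, g z * κ.T u j f z) +
      (Bf κ u n j0 P f g W1 + Bf κ u n j0 P f g W2 + ∑ m ∈ W3, Bf κ u n j0 P f g {m})| *
        L ^ B
      ≤ (3 * (2 * L) ^ A * (D * (Real.exp (-(L / 4)) * X)) +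
      (√(3 * C0) * Real.exp (-(L / 4)) * X + √C0 * Real.exp (-(L / 4)) * X +
        CG * 2 ^ B / L ^ B * (√3 * X))) * L ^ B := by gcongr
    _ = 3 * 2 ^ A * D * (L ^ (A + B) * Real.exp (-(L / 4))) * X +
        √(3 * C0) * (L ^ B * Real.exp (-(L / 4))) * X +
        √C0 * (L ^ B * Real.exp (-(L / 4))) * X + K4 * X := by
        rw [hK4, mul_pow, pow_add]
        field_simp
        ring
    _ ≤ K1 * X + K2 * X + K3 * X + K4 * X := by
        rw [hK1, hK2, hK3]
        gcongr
    _ ≤ (2 * CG + (K1 + K2 + K3 + K4)) * √VF * √VE := by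
        have : 0 ≤ 2 * CG * X := by positivity
        calc K1 * X + K2 * X + K3 * X + K4 * X ≤ 2 * CG * X +
            (K1 * X + K2 * X + K3 * X + K4 * X) := by linarith
          _ = (2 * CG + (K1 + K2 + K3 + K4)) * √VF * √VE := by rw [hX]; ring

/-- **[SHORT]**: it is enough to prove (G) for fields with a tiny Lipschitz constant. -/
theorem stG_of (hM : 8 ≤ M) {κ : Ker M} {e : ℝ} (he : e ≤ 1) (h : StGs κ) : TOP.StG κ e := by
  intro b B
  obtain ⟨C, hC, hG⟩ := gen_of hM (stGt_of (r0nuP hM κ) h) B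
  refine ⟨C, hC, ?_⟩
  intro u hu hlip n ν f g hf hg hf1 hg1 hf2 hg2 hst hfp hgp L hL hCL _
  obtain ⟨_, -, hFD1⟩ := H540.stFD1 4
  have hE : MeasurableSet {z | g z ≠ 0} := measurableSet_support hg.meas
  exact hG u hu (fun x y y' => (hlip x y y').trans (by gcongr)) n _ f g hf hg hf1 hg1 hf2 hg2
    hst hfp hgp (hFD1 u hu {z | g z ≠ 0} hE (supp_bdd hg) n ν).1
    (fun j z hz => hz.1) L hL hCL

end Vale.Agent.P112.H889
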