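import Vale.Agent.P112.H889.Dy3
import Vale.Agent.P112.H213.Tasks

/-!
# P112, block DEC: dyadic averages in the second variable on the plane (helper889)
-/

open MeasureTheory Set Filter Topology

namespace Vale.Agent.P112.DEC

lemma BM2.sec {F : ℝ × ℝ → ℝ} (h : BM2 F) (x : ℝ) : BM (fun s => F (x, s)) := by
  obtain ⟨M, hM⟩ := h.bdd
  obtain ⟨R, hR⟩ := h.supp
  exact ⟨h.meas.comp measurable_prodMk_left, ⟨M, fun y => hM _⟩,
    ⟨R, fun y hy => hR _ (Or.inr hy)⟩⟩

lemma measurable_hv {F : ℝ × ℝ → ℝ} (h : Measurable F) (j : ℤ) : Measurable (hv j F) := by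
  have h1 : ∀ n : ℤ, Measurable fun x : ℝ => ∫ s in cell j n, F (x, s) := fun n =>
    (h.stronglyMeasurable.integral_prod_right' (ν := volume.restrict (cell j n))).measurable
  have h2 : Measurable fun q : ℤ × ℝ => ∫ s in cell j q.1, F (q.2, s) :=
    measurable_from_prod_countable_right h1
  have h3 : hv j F = fun p => (2 : ℝ) ^ j * (fun q : ℤ × ℝ => ∫ s in cell j q.1, F (q.2, s))
      (dix j p.2, p.1) := by
    funext p
    unfold hv
    rw [hav_cell]
  rw [h3]
  exact (h2.comp (((measurable_dix j).comp measurable_snd).prodMk measurable_fst)).const_mul _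

lemma BM2.hv {F : ℝ × ℝ → ℝ} (h : BM2 F) (j : ℤ) : BM2 (hv j F) := by
  obtain ⟨M, hM⟩ := h.bdd
  obtain ⟨R, hR⟩ := h.supp
  refine ⟨measurable_hv h.meas j, ⟨M, fun p => ?_⟩, ⟨R + (2 : ℝ) ^ (-j), fun p hp => ?_⟩⟩
  · have h1 : Bd (fun s => F (p.1, s)) M := ⟨(h.sec p.1).meas, fun y => hM _⟩
    exact (h1.hav j).bdd p.2
  · rcases hp with hp | hp
    · have h1 : (fun s => F (p.1, s)) = fun _ => 0 := by
        funext s
        exact hR _ (Or.inl (by have := tzp (-j); linarith))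
      show hav j (fun s => F (p.1, s)) p.2 = 0
      rw [h1]
      unfold hav
      simp
    · exact hav_zero_of (fun y hy => hR _ (Or.inr hy)) hp

lemma BM2.fubini {F : ℝ × ℝ → ℝ} (h : BM2 F) : ∫ p, F p = ∫ x, ∫ y, F (x, y) := by
  have h1 := h.integrable
  rw [Measure.volume_eq_prod] at h1 ⊢
  exact integral_prod F h1

lemma BM2.integrable_inner {F : ℝ × ℝ → ℝ} (h : BM2 F) : Integrable fun x => ∫ y, F (x, y) := by
  have h1 := h.integrable
  rw [Measure.volume_eq_prod] at h1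
  exact h1.integral_prod_left

lemma integral_hv {F : ℝ × ℝ → ℝ} (h : BM2 F) (j : ℤ) : ∫ p, hv j F p = ∫ p, F p := by
  rw [(h.hv j).fubini, h.fubini]
  refine integral_congr_ae (Eventually.of_forall fun x => ?_)
  exact integral_hav (h.sec x).integrable j

/-- (H1) on the plane -/
theorem h1' (j : ℤ) {G g : ℝ × ℝ → ℝ} (hG : BM2 G) (hg : BM2 g)
    (hGg : ∀ x y y', G (x, y') - G (x, y) = ∫ s in y..y', g (x, s)) :
    ∫ p, (G p - hv j G p) ^ 2 ≤ ((2 : ℝ) ^ (-j)) ^ 2 * ∫ p, g p ^ 2 := by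
  have hs := (hG.sub (hG.hv j)).sq
  rw [hs.fubini, hg.sq.fubini, ← integral_const_mul]
  refine integral_mono hs.integrable_inner (hg.sq.integrable_inner.const_mul _) fun x => ?_
  exact h1 j (fun s => G (x, s)) (fun s => g (x, s)) (hG.sec x) (hg.sec x) (hGg x)

/-- (H2) on the plane -/
theorem h2' : ∃ C : ℝ, 0 < C ∧ ∀ (j k : ℤ) (_ : j ≤ k) (G g : ℝ × ℝ → ℝ), BM2 G → BM2 g →
    (∀ x y y', G (x, y') - G (x, y) = ∫ s in y..y', g (x, s)) →
    ∫ p, hv j g p ^ 2 ≤
      C * (2 : ℝ) ^ j * ((2 : ℝ) ^ k * (∫ p, G p ^ 2) + (2 : ℝ) ^ (-k) * ∫ p, g p ^ 2) := by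
  obtain ⟨C, hC, h⟩ := h2
  refine ⟨C, hC, ?_⟩
  intro j k hjk G g hG hg hGg
  have i1 := hG.sq.integrable_inner.const_mul ((2 : ℝ) ^ k)
  have i2 := hg.sq.integrable_inner.const_mul ((2 : ℝ) ^ (-k))
  rw [(hg.hv j).sq.fubini, hG.sq.fubini, hg.sq.fubini, ← integral_const_mul,
    ← integral_const_mul, ← integral_add i1 i2, ← integral_const_mul]
  refine integral_mono (hg.hv j).sq.integrable_inner ((i1.add i2).const_mul _) fun x => ?_
  exact h j k hjk (fun s => G (x, s)) (fun s => g (x, s)) (hG.sec x) (hg.sec x) (hGg x)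

/-- (H3a) on the plane -/
theorem h3a' (J : ℕ) {G : ℝ × ℝ → ℝ} (hG : BM2 G) :
    ∑ j ∈ Finset.Ico (-(J : ℤ)) J, ∫ p, (hv (j + 1) G p - hv j G p) ^ 2 ≤ ∫ p, G p ^ 2 := by
  have hs : ∀ j : ℤ, BM2 (fun p => (hv (j + 1) G p - hv j G p) ^ 2) := fun j =>
    ((hG.hv (j + 1)).sub (hG.hv j)).sq
  simp_rw [fun j => (hs j).fubini]
  rw [hG.sq.fubini, ← integral_finsetSum _ fun j _ => (hs j).integrable_inner]
  refine integral_mono (integrable_finsetSum _ fun j _ => (hs j).integrable_inner)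
    hG.sq.integrable_inner fun x => ?_
  exact h3a J (fun s => G (x, s)) (hG.sec x)

lemma sum_tele' {G : ℝ × ℝ → ℝ} (hG : BM2 G) (J : ℕ) :
    ∑ j ∈ Finset.Ico (-(J : ℤ)) J, ∫ p, (hv (j + 1) G p - hv j G p) ^ 2 =
      (∫ p, hv J G p ^ 2) - ∫ p, hv (-(J : ℤ)) G p ^ 2 := by
  have hs : ∀ j : ℤ, BM2 (fun p => (hv (j + 1) G p - hv j G p) ^ 2) := fun j =>
    ((hG.hv (j + 1)).sub (hG.hv j)).sq
  simp_rw [fun j => (hs j).fubini]
  rw [(hG.hv J).sq.fubini, (hG.hv (-(J : ℤ))).sq.fubini,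
    ← integral_finsetSum _ fun j _ => (hs j).integrable_inner,
    ← integral_sub (hG.hv J).sq.integrable_inner (hG.hv (-(J : ℤ))).sq.integrable_inner]
  refine integral_congr_ae (Eventually.of_forall fun x => ?_)
  exact sum_tele (hG.sec x) J

lemma tendsto_fine' {G : ℝ × ℝ → ℝ} (hc : Continuous G) (hG : BM2 G) :
    Tendsto (fun J : ℕ => ∫ p, hv J G p ^ 2) atTop (𝓝 (∫ p, G p ^ 2)) := by
  obtain ⟨M, hM⟩ := hG.bdd
  obtain ⟨R, hR⟩ := hG.supp
  set S : Set (ℝ × ℝ) := Icc (-(R + 1)) (R + 1) ×ˢ Icc (-(R + 1)) (R + 1) with hS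
  have hfin : (volume : Measure (ℝ × ℝ)) S ≠ ⊤ := by
    rw [hS, Measure.volume_eq_prod, Measure.prod_prod]
    exact ENNReal.mul_ne_top (by simp) (by simp)
  have h0 : IntegrableOn (fun _ : ℝ × ℝ => M ^ 2) S := integrableOn_const hfin
  have hb : Integrable (S.indicator fun _ : ℝ × ℝ => M ^ 2) :=
    h0.integrable_indicator (measurableSet_Icc.prod measurableSet_Icc)
  have hbd : ∀ x, Bd (fun s => G (x, s)) M := fun x => ⟨(hG.sec x).meas, fun y => hM _⟩
  refine tendsto_integral_of_dominated_convergence _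
    (fun J => (hG.hv J).sq.meas.aestronglyMeasurable) hb
    (fun J => Eventually.of_forall fun p => ?_) (Eventually.of_forall fun p => ?_)
  · rw [Real.norm_of_nonneg (sq_nonneg _)]
    by_cases hp : p ∈ S
    · rw [indicator_of_mem hp]
      have := ((hbd p.1).hav J).sq.bdd p.2
      rwa [abs_of_nonneg (sq_nonneg _)] at this
    · rw [indicator_of_notMem hp]
      have h1 : (2 : ℝ) ^ (-(J : ℤ)) ≤ 1 := by
        rw [zpow_neg, zpow_natCast]
        exact inv_le_one_of_one_le₀ (one_le_pow₀ (by norm_num))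
      have h2 : hv J G p = 0 := by
        rw [hS, mem_prod, mem_Icc, mem_Icc, ← abs_le, ← abs_le, not_and_or, not_le, not_le] at hp
        rcases hp with hp | hp
        · have h3 : (fun s => G (p.1, s)) = fun _ => 0 := by
            funext s
            exact hR _ (Or.inl (by linarith))
          show hav J (fun s => G (p.1, s)) p.2 = 0
          rw [h3]
          unfold hav
          simp
        · exact hav_zero_of (fun y hy => hR _ (Or.inr hy)) (by linarith)
      rw [h2]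
      norm_num
  · refine Tendsto.pow ?_ 2
    have hcx : Continuous fun s => G (p.1, s) := hc.comp (continuous_const.prodMk continuous_id)
    rw [Metric.tendsto_atTop]
    intro ε hε
    obtain ⟨δ, hδ, h1⟩ := Metric.continuousAt_iff.1 (hcx.continuousAt (x := p.2)) (ε / 2)
      (half_pos hε)
    obtain ⟨N, hN⟩ := Metric.tendsto_atTop.1 tendsto_two_neg δ hδ
    refine ⟨N, fun J hJ => ?_⟩
    have h2 := hN J hJ
    rw [Real.dist_eq, sub_zero, abs_of_pos (tzp _)] at h2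
    rw [dist_comm, Real.dist_eq]
    refine lt_of_le_of_lt (abs_sub_hav_le (hbd p.1) J p.2 (G p) (ε / 2) fun s hs => ?_)
      (half_lt_self hε)
    have h3 := dr_sub_dl (J : ℤ) p.2
    have h4 := dl_le (J : ℤ) p.2
    have h5 := le_dr (J : ℤ) p.2
    have h6 : dist s p.2 < δ := by
      rw [Real.dist_eq]
      refine lt_of_le_of_lt ?_ h2
      rw [abs_le]
      constructor <;> linarith [hs.1, hs.2]
    have h7 := h1 h6
    rw [Real.dist_eq, abs_sub_comm] at h7
    exact h7.le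

lemma coarse' {G : ℝ × ℝ → ℝ} (hG : BM2 G) : ∃ L : ℝ, ∀ J : ℕ,
    ∫ p, hv (-(J : ℤ)) G p ^ 2 ≤ (2 : ℝ) ^ (-(J : ℤ)) * L := by
  obtain ⟨M, hM⟩ := hG.bdd
  obtain ⟨R, hR⟩ := hG.supp
  have hM0 : 0 ≤ M := (abs_nonneg _).trans (hM 0)
  set T : ℝ := M * (2 * |R|) with hT
  have h0 : ∀ x, ∫ y, |G (x, y)| ≤ T := by
    intro x
    have h1 : ∀ y, |G (x, y)| ≤ (Icc (-|R|) |R|).indicator (fun _ => M) y := by
      intro y
      by_cases hy : y ∈ Icc (-|R|) |R|
      · rw [indicator_of_mem hy]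
        exact hM _
      · rw [indicator_of_notMem hy, hR, abs_zero]
        right
        rw [mem_Icc, ← abs_le, not_le] at hy
        exact (le_abs_self R).trans hy.le
    have h2 : Integrable ((Icc (-|R|) |R|).indicator fun _ : ℝ => M) :=
      (integrableOn_const (by simp)).integrable_indicator measurableSet_Icc
    refine (integral_mono (hG.sec x).abs.integrable h2 h1).trans (le_of_eq ?_)
    rw [integral_indicator measurableSet_Icc, setIntegral_const, Measure.real, Real.volume_Icc,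
      smul_eq_mul, hT, ENNReal.toReal_ofReal (by linarith [abs_nonneg R])]
    ring
  refine ⟨T * ∫ p, |G p|, fun J => ?_⟩
  have h1 : ∀ p, |hv (-(J : ℤ)) G p| ≤ (2 : ℝ) ^ (-(J : ℤ)) * T := by
    intro p
    show |hav (-(J : ℤ)) (fun s => G (p.1, s)) p.2| ≤ _
    rw [hav_cell, _root_.abs_mul, abs_of_pos (tzp _)]
    refine mul_le_mul_of_nonneg_left ?_ (tzp _).le
    refine (abs_integral_cell_le _ _ _).trans (le_trans ?_ (h0 p.1))
    exact setIntegral_le_integral (hG.sec p.1).abs.integrable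
      (Eventually.of_forall fun y => abs_nonneg _)
  have h2 : ∀ p, |hv (-(J : ℤ)) G p| ≤ hv (-(J : ℤ)) (fun q => |G q|) p := by
    intro p
    show |hav (-(J : ℤ)) (fun s => G (p.1, s)) p.2| ≤ hav (-(J : ℤ)) (fun s => |G (p.1, s)|) p.2
    rw [hav_cell, hav_cell, _root_.abs_mul, abs_of_pos (tzp _)]
    exact mul_le_mul_of_nonneg_left (abs_integral_cell_le _ _ _) (tzp _).le
  have h3 : ∀ p, hv (-(J : ℤ)) G p ^ 2 ≤
      (2 : ℝ) ^ (-(J : ℤ)) * T * hv (-(J : ℤ)) (fun q => |G q|) p := by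
    intro p
    rw [← sq_abs, pow_two]
    exact mul_le_mul (h1 p) (h2 p) (abs_nonneg _) ((abs_nonneg _).trans (h1 p))
  calc ∫ p, hv (-(J : ℤ)) G p ^ 2
      ≤ ∫ p, (2 : ℝ) ^ (-(J : ℤ)) * T * hv (-(J : ℤ)) (fun q => |G q|) p :=
        integral_mono_of_nonneg (Eventually.of_forall fun p => sq_nonneg _)
          ((hG.abs.hv _).integrable.const_mul _) (Eventually.of_forall h3)
    _ = (2 : ℝ) ^ (-(J : ℤ)) * (T * ∫ p, |G p|) := by
        rw [integral_const_mul, integral_hv hG.abs]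
        ring

/-- (H3b) on the plane -/
theorem h3b' {G : ℝ × ℝ → ℝ} (hc : Continuous G) (hG : BM2 G) (B : ℝ)
    (hB : ∀ J : ℕ, ∑ j ∈ Finset.Ico (-(J : ℤ)) J, ∫ p, (hv (j + 1) G p - hv j G p) ^ 2 ≤ B) :
    ∫ p, G p ^ 2 ≤ B := by
  obtain ⟨L, hL⟩ := coarse' hG
  have h1 : Tendsto (fun J : ℕ => ∫ p, hv (-(J : ℤ)) G p ^ 2) atTop (𝓝 0) := by
    have h2 : Tendsto (fun J : ℕ => (2 : ℝ) ^ (-(J : ℤ)) * L) atTop (𝓝 0) := by
      have := tendsto_two_neg.mul_const L
      rwa [zero_mul] at this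
    exact squeeze_zero (fun J => integral_nonneg fun p => sq_nonneg _) hL h2
  have h2 := (tendsto_fine' hc hG).sub h1
  rw [sub_zero] at h2
  refine le_of_tendsto h2 (Eventually.of_forall fun J => ?_)
  have h3 := hB J
  rwa [sum_tele' hG J] at h3

/-- (H4) on the plane: Carleson embedding for a bounded symbol -/
theorem h4' (J : ℕ) {b : ℝ × ℝ → ℝ} {B : ℝ} (hb : Measurable b) (hbB : ∀ p, |b p| ≤ B)
    {h : ℤ → ℝ × ℝ → ℝ} {m : ℝ × ℝ → ℝ} (hmeas : ∀ j, Measurable (h j))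
    (hl : ∀ j x y y', dix j y = dix j y' → h j (x, y) = h j (x, y'))
    (hm : ∀ j p, |h j p| ≤ m p) (hmm : Measurable m) (hmi : Integrable fun p => m p ^ 2) :
    ∑ j ∈ Finset.Ico (-(J : ℤ)) J, ∫ p, ((hv (j + 1) b p - hv j b p) * h j p) ^ 2 ≤
      B ^ 2 * ∫ p, m p ^ 2 := by
  have hB0 : 0 ≤ B := (abs_nonneg _).trans (hbB 0)
  have hbx : ∀ x, Bd (fun s => b (x, s)) B := fun x =>
    ⟨hb.comp measurable_prodMk_left, fun y => hbB _⟩
  have hi : ∀ j : ℤ, Integrable fun p => ((hv (j + 1) b p - hv j b p) * h j p) ^ 2 := by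
    intro j
    refine Integrable.mono' (hmi.const_mul ((B + B) ^ 2))
      ((((measurable_hv hb _).sub (measurable_hv hb _)).mul (hmeas j)).pow_const
        2).aestronglyMeasurable (Eventually.of_forall fun p => ?_)
    rw [Real.norm_of_nonneg (sq_nonneg _), mul_pow]
    refine mul_le_mul ?_ ?_ (sq_nonneg _) (sq_nonneg _)
    · rw [← sq_abs (hv (j + 1) b p - hv j b p)]
      exact pow_le_pow_left₀ (abs_nonneg _)
        ((((hbx p.1).hav (j + 1)).sub ((hbx p.1).hav j)).bdd p.2) 2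
    · rw [← sq_abs]
      exact pow_le_pow_left₀ (abs_nonneg _) (hm j p) 2
  have hi' : ∀ j : ℤ, Integrable fun x =>
      ∫ y, ((hv (j + 1) b (x, y) - hv j b (x, y)) * h j (x, y)) ^ 2 := by
    intro j
    have h1 := hi j
    rw [Measure.volume_eq_prod] at h1
    exact h1.integral_prod_left
  have hf : ∀ j : ℤ, ∫ p, ((hv (j + 1) b p - hv j b p) * h j p) ^ 2 =
      ∫ x, ∫ y, ((hv (j + 1) b (x, y) - hv j b (x, y)) * h j (x, y)) ^ 2 := by
    intro j
    have h1 := hi j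
    rw [Measure.volume_eq_prod] at h1 ⊢
    exact integral_prod _ h1
  simp_rw [hf]
  have hmi' := hmi
  rw [Measure.volume_eq_prod] at hmi'
  have hfm : ∫ p, m p ^ 2 = ∫ x, ∫ y, m (x, y) ^ 2 := by
    rw [Measure.volume_eq_prod]
    exact integral_prod _ hmi'
  rw [hfm, ← integral_finsetSum _ fun j _ => hi' j, ← integral_const_mul]
  refine integral_mono_ae (integrable_finsetSum _ fun j _ => hi' j)
    (hmi'.integral_prod_left.const_mul _) ?_
  filter_upwards [hmi'.prod_right_ae] with x hx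
  exact h4 J (fun s => b (x, s)) B (hbx x).meas (hbx x).bdd (fun j y => h j (x, y))
    (fun y => m (x, y)) (fun j y y' => hl j x y y') (fun j y => hm j (x, y))
    (hmm.comp measurable_prodMk_left) hx

theorem d1 : D1 := fun j _ h => h.hv j

theorem d2 : D2 := by
  intro j G g hG hg hGg
  have h := h1' j hG hg hGg
  have h3 := tzp (-j)
  unfold N
  calc Real.sqrt (∫ z, (G z - hv j G z) ^ 2)
      ≤ Real.sqrt (((2 : ℝ) ^ (-j)) ^ 2 * ∫ z, g z ^ 2) := Real.sqrt_le_sqrt h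
    _ = (2 : ℝ) ^ (-j) * Real.sqrt (∫ z, g z ^ 2) := by
        rw [Real.sqrt_mul (sq_nonneg _), Real.sqrt_sq h3.le]

theorem d3 : D3 := by
  obtain ⟨C, hC, h⟩ := h2'
  refine ⟨C, hC, fun j k hjk G g hG hg hGg => ?_⟩
  rw [N_sq, N_sq, N_sq]
  exact h j k hjk G g hG hg hGg

theorem d4 : D4 := by
  intro J G hG
  simp_rw [N_sq]
  exact h3a' J hG

theorem d5 : D5 := by
  intro G hG B hB
  simp_rw [N_sq] at hB ⊢
  exact h3b' hG.1 hG.bm B hB

theorem d6 : D6 := by
  intro J b e hb hbe h m hh hm hl hle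
  simp_rw [N_sq]
  exact h4' J hb hbe (fun j => (hh j).meas) hl hle hm.meas hm.sq.integrable

theorem d7 : D7 := by
  intro j f hf
  refine Real.sqrt_le_sqrt ?_
  rw [(hf.hv j).sq.fubini, hf.sq.fubini]
  refine integral_mono (hf.hv j).sq.integrable_inner hf.sq.integrable_inner fun x => ?_
  exact int_sq_hav_le (hf.sec x) j

theorem d8 : D8 := by
  intro j i hji b h e _ _ _ hl z
  show hav i (fun s => b (z.1, s) * h (z.1, s)) z.2 = hav i (fun s => b (z.1, s)) z.2 * h z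
  have h1 : Lev i (fun s => h (z.1, s)) := Lev.le hji (fun y y' hy => hl z.1 y y' hy)
  have h2 := hav_mul h1 (fun s => b (z.1, s)) z.2
  rw [mul_comm, ← h2]
  congr 1
  funext s
  exact mul_comm _ _

theorem d9 : D9 := by
  intro j f g hf hg hfg z
  show |hav j (fun s => f (z.1, s)) z.2| ≤ hav j (fun s => g (z.1, s)) z.2
  rw [hav_cell, hav_cell, _root_.abs_mul, abs_of_pos (tzp _)]
  refine mul_le_mul_of_nonneg_left ((abs_integral_cell_le _ _ _).trans ?_) (tzp _).le
  exact setIntegral_mono (hf.sec z.1).abs.integrable.integrableOn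
    (hg.sec z.1).integrable.integrableOn fun s => hfg _

theorem d10 : D10 := by
  intro j f g hf hg z
  show hav j (fun s => f (z.1, s) + g (z.1, s)) z.2 =
    hav j (fun s => f (z.1, s)) z.2 + hav j (fun s => g (z.1, s)) z.2
  rw [hav_cell, hav_cell, hav_cell, integral_add (hf.sec z.1).integrable.integrableOn
    (hg.sec z.1).integrable.integrableOn, mul_add]

theorem d11 : D11 := fun j f x y y' h => lev_hav j (fun s => f (x, s)) y y' h

end Vale.Agent.P112.DEC
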