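import Vale.Agent.P112.H213.Tasks

/-!
# P112, block DEC: Schur sums (helper889)
-/

open Finset

namespace Vale.Agent.P112.DEC

lemma sum_geo_natAbs {r : ℝ} (h0 : 0 ≤ r) (h1 : r < 1) (S : Finset ℤ) (j : ℤ) :
    ∑ k ∈ S, r ^ (j - k).natAbs ≤ 2 * (1 - r)⁻¹ := by
  have hg : ∀ n : ℕ, ∑ i ∈ range n, r ^ i ≤ (1 - r)⁻¹ := fun n => by
    rw [← tsum_geometric_of_lt_one h0 h1]
    exact (summable_geometric_of_lt_one h0 h1).sum_le_tsum _ fun i _ => pow_nonneg h0 i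
  classical
  -- split into `k ≤ j` and `k > j`
  have hs : ∀ (T : Finset ℤ) (f : ℤ → ℕ), Set.InjOn f T →
      ∑ k ∈ T, r ^ f k ≤ (1 - r)⁻¹ := by
    intro T f hf
    have h2 : ∑ k ∈ T, r ^ f k = ∑ i ∈ T.image f, r ^ i := (sum_image hf).symm
    rw [h2]
    obtain ⟨n, hn⟩ := (T.image f).exists_nat_subset_range
    exact (sum_le_sum_of_subset_of_nonneg hn fun i _ _ => pow_nonneg h0 i).trans (hg n)
  rw [← sum_filter_add_sum_filter_not S (fun k => k ≤ j)]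
  have e1 : ∑ k ∈ S with k ≤ j, r ^ (j - k).natAbs ≤ (1 - r)⁻¹ := by
    apply hs
    intro a ha b hb hab
    simp only [coe_filter, Set.mem_ofPred_eq] at ha hb
    simp only at hab
    omega
  have e2 : ∑ k ∈ S with ¬ k ≤ j, r ^ (j - k).natAbs ≤ (1 - r)⁻¹ := by
    apply hs
    intro a ha b hb hab
    simp only [coe_filter, Set.mem_ofPred_eq] at ha hb
    simp only at hab
    omega
  linarith

/-- Schur's test for a geometric kernel -/
theorem schur_geo {r : ℝ} (h0 : 0 ≤ r) (h1 : r < 1) (T S : Finset ℤ) (a : ℤ → ℝ) :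
    ∑ j ∈ T, (∑ k ∈ S, r ^ (j - k).natAbs * a k) ^ 2 ≤
      (2 * (1 - r)⁻¹) ^ 2 * ∑ k ∈ S, a k ^ 2 := by
  set W : ℝ := 2 * (1 - r)⁻¹ with hW
  have hW0 : 0 ≤ W := by
    have : 0 < 1 - r := by linarith
    positivity
  have h2 : ∀ j, (∑ k ∈ S, r ^ (j - k).natAbs * a k) ^ 2 ≤
      W * ∑ k ∈ S, r ^ (j - k).natAbs * a k ^ 2 := by
    intro j
    have h3 := sum_mul_sq_le_sq_mul_sq S (fun k => Real.sqrt (r ^ (j - k).natAbs))
      (fun k => Real.sqrt (r ^ (j - k).natAbs) * a k)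
    have h4 : ∀ k, Real.sqrt (r ^ (j - k).natAbs) * (Real.sqrt (r ^ (j - k).natAbs) * a k) =
        r ^ (j - k).natAbs * a k := fun k => by
      rw [← mul_assoc, Real.mul_self_sqrt (pow_nonneg h0 _)]
    have h5 : ∀ k, Real.sqrt (r ^ (j - k).natAbs) ^ 2 = r ^ (j - k).natAbs := fun k =>
      Real.sq_sqrt (pow_nonneg h0 _)
    have h6 : ∀ k, (Real.sqrt (r ^ (j - k).natAbs) * a k) ^ 2 = r ^ (j - k).natAbs * a k ^ 2 :=
      fun k => by rw [mul_pow, h5]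
    simp_rw [h4, h5, h6] at h3
    refine h3.trans (mul_le_mul_of_nonneg_right (sum_geo_natAbs h0 h1 S j) ?_)
    exact sum_nonneg fun k _ => mul_nonneg (pow_nonneg h0 _) (sq_nonneg _)
  calc ∑ j ∈ T, (∑ k ∈ S, r ^ (j - k).natAbs * a k) ^ 2
      ≤ ∑ j ∈ T, W * ∑ k ∈ S, r ^ (j - k).natAbs * a k ^ 2 := sum_le_sum fun j _ => h2 j
    _ = W * ∑ k ∈ S, (∑ j ∈ T, r ^ (j - k).natAbs) * a k ^ 2 := by
        rw [← mul_sum, sum_comm]
        simp_rw [sum_mul]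
    _ ≤ W * ∑ k ∈ S, W * a k ^ 2 := by
        refine mul_le_mul_of_nonneg_left (sum_le_sum fun k _ => ?_) hW0
        refine mul_le_mul_of_nonneg_right ?_ (sq_nonneg _)
        have h7 : ∀ j, (j - k).natAbs = (k - j).natAbs := fun j => by omega
        simp_rw [h7]
        exact sum_geo_natAbs h0 h1 T k
    _ = W ^ 2 * ∑ k ∈ S, a k ^ 2 := by
        rw [← mul_sum]
        ring

theorem sch : SCH := by
  have h0 : 0 ≤ (Real.sqrt 2)⁻¹ := by positivity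
  have h1 : (Real.sqrt 2)⁻¹ < 1 := by
    apply inv_lt_one_of_one_lt₀
    rw [Real.lt_sqrt (by norm_num)]
    norm_num
  refine ⟨(2 * (1 - (Real.sqrt 2)⁻¹)⁻¹) ^ 2, ?_, fun T S a _ => schur_geo h0 h1 T S a⟩
  have : 0 < 1 - (Real.sqrt 2)⁻¹ := by linarith
  positivity

end Vale.Agent.P112.DEC
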