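import Vale.Agent.P112.Bdl.B5
import Mathlib.Analysis.Calculus.BumpFunction.FiniteDimension
import Mathlib.Analysis.Calculus.BumpFunction.InnerProduct

/-!
# P112, block KS: the dyadic pieces of the kernel `1/t` with a smooth profile (helper889)
-/

open Set Filter Topology
open scoped ContDiff

namespace Vale.Agent.P112.DEC

/-- a smooth even cutoff: one near `0`, zero for `|t| ≥ 1/8` -/
lemma exists_cut : ∃ f : ℝ → ℝ, ContDiff ℝ ∞ f ∧ (∀ t, f (-t) = f t) ∧
    (∀ t, |t| ≤ 1 / 16 → f t = 1) ∧ (∀ t, 1 / 8 ≤ |t| → f t = 0) ∧ ∀ t, |f t| ≤ 1 := by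
  let b : ContDiffBump (0 : ℝ) := ⟨1 / 16, 1 / 8, by norm_num, by norm_num⟩
  refine ⟨b, b.contDiff, fun t => b.neg t, fun t ht => ?_, fun t ht => ?_, fun t => ?_⟩
  · apply b.one_of_mem_closedBall
    rw [mem_closedBall_zero_iff, Real.norm_eq_abs]
    exact ht
  · apply b.zero_of_le_dist
    rw [dist_zero_right, Real.norm_eq_abs]
    exact ht
  · rw [abs_of_nonneg b.nonneg]
    exact b.le_one

/-- a smooth function vanishing near `0`, divided by the variable -/
lemma contDiff_div_id {g : ℝ → ℝ} (hg : ContDiff ℝ ∞ g) {r : ℝ} (hr : 0 < r)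
    (h0 : ∀ t, |t| ≤ r → g t = 0) : ContDiff ℝ ∞ (fun t => g t / t) := by
  rw [contDiff_iff_contDiffAt]
  intro t
  by_cases ht : t = 0
  · have h1 : (fun t => g t / t) =ᶠ[𝓝 t] fun _ => 0 := by
      rw [ht]
      filter_upwards [Metric.ball_mem_nhds (0 : ℝ) hr] with s hs
      rw [mem_ball_zero_iff, Real.norm_eq_abs] at hs
      rw [h0 s hs.le, zero_div]
    exact contDiffAt_const.congr_of_eventuallyEq h1
  · exact (hg.contDiffAt).div contDiffAt_id ht

lemma continuous_div_id {g : ℝ → ℝ} (hg : Continuous g) {r : ℝ} (hr : 0 < r)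
    (h0 : ∀ t, |t| ≤ r → g t = 0) : Continuous (fun t => g t / t) := by
  rw [continuous_iff_continuousAt]
  intro t
  by_cases ht : t = 0
  · have h1 : (fun t => g t / t) =ᶠ[𝓝 t] fun _ => 0 := by
      rw [ht]
      filter_upwards [Metric.ball_mem_nhds (0 : ℝ) hr] with s hs
      rw [mem_ball_zero_iff, Real.norm_eq_abs] at hs
      rw [h0 s hs.le, zero_div]
    exact continuousAt_const.congr h1.symm
  · exact (hg.continuousAt).div continuousAt_id ht

lemma chi_one {t : ℝ} (h : |t| ≤ 1 / 2) : chi t = 1 := by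
  unfold chi
  rw [min_eq_left (by linarith), max_eq_right (by norm_num)]

lemma chi_zero {t : ℝ} (h : 1 ≤ |t|) : chi t = 0 := by
  unfold chi
  rw [max_eq_left]
  exact (min_le_right _ _).trans (by linarith)

lemma chi_abs_le (t : ℝ) : |chi t| ≤ 1 := by
  unfold chi
  rw [abs_of_nonneg (le_max_left _ _)]
  exact max_le (by norm_num) (min_le_left _ _)

lemma chi_cont : Continuous chi := by
  unfold chi
  fun_prop

/-- (KS) -/
theorem ks : ∃ K D : ℝ → ℝ, ContDiff ℝ ∞ K ∧ (∀ t, K (-t) = -K t) ∧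
    (∀ t, 1 / 8 ≤ |t| → K t = 0) ∧ Continuous D ∧ (∃ M, ∀ t, |D t| ≤ M) ∧
    (∀ t, 1 ≤ |t| → D t = 0) ∧
    ∀ (n : ℕ) (t : ℝ), ∑ j ∈ Finset.range n, 2 ^ j * K (2 ^ j * t) =
      (∑ l ∈ Finset.range n, eta (sc l) t) + D t - 2 ^ n * D (2 ^ n * t) := by
  obtain ⟨f, hf, heven, hone, hzero, hle⟩ := exists_cut
  refine ⟨fun t => (f t - f (2 * t)) / t, fun t => (f t - chi t) / t, ?_, ?_, ?_, ?_, ?_, ?_, ?_⟩
  · refine contDiff_div_id (r := 1 / 32) ?_ (by norm_num) fun t ht => ?_
    · exact hf.sub (hf.comp (contDiff_const.mul contDiff_id))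
    · rw [hone t (by linarith), hone (2 * t), sub_self]
      rw [abs_mul, abs_two]
      linarith
  · intro t
    show (f (-t) - f (2 * -t)) / -t = -((f t - f (2 * t)) / t)
    rw [mul_neg, heven, heven, div_neg]
  · intro t ht
    show (f t - f (2 * t)) / t = 0
    rw [hzero t ht, hzero (2 * t), sub_self, zero_div]
    rw [abs_mul, abs_two]
    linarith [abs_nonneg t]
  · refine continuous_div_id (r := 1 / 16) (hf.continuous.sub chi_cont) (by norm_num)
      fun t ht => ?_
    rw [hone t ht, chi_one (by linarith), sub_self]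
  · refine ⟨32, fun t => ?_⟩
    show |(f t - chi t) / t| ≤ 32
    by_cases ht : |t| ≤ 1 / 16
    · rw [hone t ht, chi_one (by linarith), sub_self, zero_div, abs_zero]
      norm_num
    · rw [not_le] at ht
      have h1 : |f t - chi t| ≤ 2 := by
        have := abs_sub (f t) (chi t)
        linarith [hle t, chi_abs_le t]
      rw [abs_div, div_le_iff₀ (by linarith)]
      linarith
  · intro t ht
    show (f t - chi t) / t = 0
    rw [hzero t (by linarith), chi_zero ht, sub_self, zero_div]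
  · intro n t
    show ∑ j ∈ Finset.range n, 2 ^ j * ((f (2 ^ j * t) - f (2 * (2 ^ j * t))) / (2 ^ j * t)) = _
    have h1 : ∀ j : ℕ, (2 : ℝ) ^ j * ((f (2 ^ j * t) - f (2 * (2 ^ j * t))) / (2 ^ j * t)) =
        (f (2 ^ j * t) - f (2 ^ (j + 1) * t)) / t := by
      intro j
      have h2 : (2 : ℝ) ^ j ≠ 0 := by positivity
      have h3 : (2 : ℝ) * (2 ^ j * t) = 2 ^ (j + 1) * t := by ring
      rw [h3]
      rcases eq_or_ne t 0 with rfl | ht
      · simp
      · field_simp
    have h4 : ∀ l : ℕ, eta (sc l) t = (chi (2 ^ l * t) - chi (2 ^ (l + 1) * t)) / t := by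
      intro l
      unfold eta sc
      have h5 : t / (1 / 2) ^ l = 2 ^ l * t := by
        rw [one_div, inv_pow, div_inv_eq_mul, mul_comm]
      rw [h5]
      congr 2
      ring_nf
    simp_rw [h1, h4]
    rw [← Finset.sum_div, ← Finset.sum_div, Finset.sum_range_sub', Finset.sum_range_sub',
      pow_zero, one_mul]
    have h6 : (2 : ℝ) ^ n * ((f (2 ^ n * t) - chi (2 ^ n * t)) / (2 ^ n * t)) =
        (f (2 ^ n * t) - chi (2 ^ n * t)) / t := by
      have h2 : (2 : ℝ) ^ n ≠ 0 := by positivity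
      rcases eq_or_ne t 0 with rfl | ht
      · simp
      · field_simp
    show _ = (chi t - chi (2 ^ n * t)) / t + (f t - chi t) / t -
      2 ^ n * ((f (2 ^ n * t) - chi (2 ^ n * t)) / (2 ^ n * t))
    rw [h6, ← add_div, ← sub_div]
    congr 1
    ring

end Vale.Agent.P112.DEC
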