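import Vale.Agent.P112.H213.Defs

/-!
# P112, block DEC: dyadic averages on the line (helper889)

Proofs of the one-variable statements H1, H2, H3a, H3b, H4 of `H213/Defs.lean`.
-/

open MeasureTheory Set

namespace Vale.Agent.P112.DEC

lemma tzp (j : ℤ) : (0 : ℝ) < (2 : ℝ) ^ j := by positivity

lemma tz_mul (j : ℤ) : (2 : ℝ) ^ j * (2 : ℝ) ^ (-j) = 1 := by
  rw [← zpow_add₀ (by norm_num : (2 : ℝ) ≠ 0)]; simp

lemma tz_succ (j : ℤ) : (2 : ℝ) ^ (-j) = 2 * (2 : ℝ) ^ (-(j + 1)) := by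
  have h : -j = 1 + -(j + 1) := by ring
  rw [h, zpow_add₀ (by norm_num : (2 : ℝ) ≠ 0), zpow_one]

lemma dix_eq_iff (j : ℤ) (y : ℝ) (n : ℤ) :
    dix j y = n ↔ (n : ℝ) * (2 : ℝ) ^ (-j) ≤ y ∧ y < ((n : ℝ) + 1) * (2 : ℝ) ^ (-j) := by
  unfold dix
  rw [Int.floor_eq_iff]
  have h := tzp j
  have h2 : y = (2 : ℝ) ^ j * y * (2 : ℝ) ^ (-j) := by
    rw [mul_comm ((2 : ℝ) ^ j) y, mul_assoc, tz_mul, mul_one]
  have h3 := tzp (-j)
  constructor
  · rintro ⟨h4, h5⟩
    constructor
    · rw [h2]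
      exact mul_le_mul_of_nonneg_right h4 h3.le
    · rw [h2]
      exact mul_lt_mul_of_pos_right h5 h3
  · rintro ⟨h4, h5⟩
    constructor
    · by_contra h6
      rw [not_le] at h6
      have := mul_lt_mul_of_pos_right h6 h3
      rw [← h2] at this
      linarith
    · by_contra h6
      rw [not_lt] at h6
      have := mul_le_mul_of_nonneg_right h6 h3.le
      rw [← h2] at this
      linarith

/-- the dyadic interval number `n` of length `2^(-j)` -/
def cell (j n : ℤ) : Set ℝ := Ico ((n : ℝ) * (2 : ℝ) ^ (-j)) (((n : ℝ) + 1) * (2 : ℝ) ^ (-j))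

lemma mem_cell {j n : ℤ} {y : ℝ} : y ∈ cell j n ↔ dix j y = n := (dix_eq_iff j y n).symm

lemma cell_le (j n : ℤ) : (n : ℝ) * (2 : ℝ) ^ (-j) ≤ ((n : ℝ) + 1) * (2 : ℝ) ^ (-j) :=
  mul_le_mul_of_nonneg_right (by linarith) (tzp _).le

lemma measurableSet_cell (j n : ℤ) : MeasurableSet (cell j n) := measurableSet_Ico

lemma dix_left (j n : ℤ) : dix j ((n : ℝ) * (2 : ℝ) ^ (-j)) = n := by
  rw [dix_eq_iff]
  exact ⟨le_rfl, mul_lt_mul_of_pos_right (by linarith) (tzp _)⟩

lemma iUnion_cell (j : ℤ) : ⋃ n, cell j n = univ := by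
  ext y
  simp only [mem_iUnion, mem_univ, iff_true]
  exact ⟨dix j y, mem_cell.2 rfl⟩

lemma disjoint_cell (j : ℤ) : Pairwise (Function.onFun Disjoint (cell j)) := by
  intro m n hmn
  rw [Function.onFun, Set.disjoint_left]
  intro y hy hy'
  exact hmn ((mem_cell.1 hy).symm.trans (mem_cell.1 hy'))

lemma volume_cell (j n : ℤ) : (volume : Measure ℝ).real (cell j n) = (2 : ℝ) ^ (-j) := by
  rw [cell, Measure.real, Real.volume_Ico, ENNReal.toReal_ofReal]
  · ring
  · have := cell_le j n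
    linarith

lemma volume_cell_ne_top (j n : ℤ) : (volume : Measure ℝ) (cell j n) ≠ ⊤ := by
  rw [cell, Real.volume_Ico]
  exact ENNReal.ofReal_ne_top

lemma hav_cell (j : ℤ) (f : ℝ → ℝ) (y : ℝ) :
    hav j f y = (2 : ℝ) ^ j * ∫ s in cell j (dix j y), f s := by
  unfold hav dl dr
  rw [intervalIntegral.integral_of_le (cell_le j (dix j y)), integral_Ioc_eq_integral_Ioo,
    ← integral_Ico_eq_integral_Ioo]
  rfl

lemma hav_of_mem {j n : ℤ} {y : ℝ} (h : y ∈ cell j n) (f : ℝ → ℝ) :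
    hav j f y = (2 : ℝ) ^ j * ∫ s in cell j n, f s := by
  rw [hav_cell, mem_cell.1 h]

/-- constant on the dyadic intervals of level `j` -/
def Lev (j : ℤ) (c : ℝ → ℝ) : Prop := ∀ y y', dix j y = dix j y' → c y = c y'

lemma lev_hav (j : ℤ) (f : ℝ → ℝ) : Lev j (hav j f) := by
  intro y y' h
  rw [hav_cell, hav_cell, h]

lemma measurable_dix (j : ℤ) : Measurable (dix j) :=
  Int.measurable_floor.comp (measurable_const.mul measurable_id)

lemma Lev.measurable {j : ℤ} {c : ℝ → ℝ} (h : Lev j c) : Measurable c := by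
  have h1 : c = (fun n : ℤ => c ((n : ℝ) * (2 : ℝ) ^ (-j))) ∘ dix j := by
    funext y
    exact h _ _ (dix_left j (dix j y)).symm
  rw [h1]
  exact (measurable_from_top).comp (measurable_dix j)

lemma dix_succ (j : ℤ) (y : ℝ) : dix j y = dix (j + 1) y / 2 := by
  rw [dix_eq_iff]
  obtain ⟨h1, h2⟩ := (dix_eq_iff (j + 1) y _).1 rfl
  have h3 := tzp (-(j + 1))
  set a : ℤ := dix (j + 1) y with ha
  rw [tz_succ j]
  have h4 : 2 * (a / 2) ≤ a := Int.mul_ediv_self_le (by norm_num)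
  have h5 : a < 2 * (a / 2) + 2 := by omega
  have h4' : (2 : ℝ) * ((a / 2 : ℤ) : ℝ) ≤ (a : ℝ) := by exact_mod_cast h4
  have h5' : (a : ℝ) + 1 ≤ 2 * ((a / 2 : ℤ) : ℝ) + 2 := by
    have : a + 1 ≤ 2 * (a / 2) + 2 := by omega
    exact_mod_cast this
  constructor
  · calc ((a / 2 : ℤ) : ℝ) * (2 * (2 : ℝ) ^ (-(j + 1)))
        = (2 * ((a / 2 : ℤ) : ℝ)) * (2 : ℝ) ^ (-(j + 1)) := by ring
      _ ≤ (a : ℝ) * (2 : ℝ) ^ (-(j + 1)) := mul_le_mul_of_nonneg_right h4' h3.le
      _ ≤ y := h1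
  · calc y < ((a : ℝ) + 1) * (2 : ℝ) ^ (-(j + 1)) := h2
      _ ≤ (2 * ((a / 2 : ℤ) : ℝ) + 2) * (2 : ℝ) ^ (-(j + 1)) :=
        mul_le_mul_of_nonneg_right h5' h3.le
      _ = (((a / 2 : ℤ) : ℝ) + 1) * (2 * (2 : ℝ) ^ (-(j + 1))) := by ring

lemma Lev.succ {j : ℤ} {c : ℝ → ℝ} (h : Lev j c) : Lev (j + 1) c := by
  intro y y' hy
  apply h
  rw [dix_succ j y, dix_succ j y', hy]

lemma Lev.le {j k : ℤ} (hjk : j ≤ k) {c : ℝ → ℝ} (h : Lev j c) : Lev k c := by
  obtain ⟨n, rfl⟩ := Int.le.dest hjk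
  induction n with
  | zero => simpa using h
  | succ n ih =>
    have := (ih (by omega)).succ
    push_cast
    rwa [← add_assoc]

lemma cell_split (j n : ℤ) : cell j n = cell (j + 1) (2 * n) ∪ cell (j + 1) (2 * n + 1) := by
  ext y
  rw [mem_union, mem_cell, mem_cell, mem_cell, dix_succ]
  omega

lemma const_on_cell {j n : ℤ} {c : ℝ → ℝ} (h : Lev j c) {y : ℝ} (hy : y ∈ cell j n) :
    ∀ s ∈ cell j n, c s = c y := fun s hs => h _ _ ((mem_cell.1 hs).trans (mem_cell.1 hy).symm)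

/-- a function constant on the cells is pulled out -/
lemma hav_mul {j : ℤ} {c : ℝ → ℝ} (h : Lev j c) (f : ℝ → ℝ) (y : ℝ) :
    hav j (fun s => c s * f s) y = c y * hav j f y := by
  rw [hav_cell, hav_cell]
  have h1 : ∫ s in cell j (dix j y), c s * f s = ∫ s in cell j (dix j y), c y * f s := by
    refine setIntegral_congr_fun (measurableSet_cell _ _) fun s hs => ?_
    show c s * f s = c y * f s
    rw [const_on_cell h (mem_cell.2 rfl) s hs]
  rw [h1, integral_const_mul]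
  ring

lemma integral_cell_of_lev {j : ℤ} {c : ℝ → ℝ} (h : Lev j c) {n : ℤ} {y : ℝ} (hy : y ∈ cell j n) :
    ∫ s in cell j n, c s = (2 : ℝ) ^ (-j) * c y := by
  rw [setIntegral_congr_fun (measurableSet_cell _ _) (const_on_cell h hy), setIntegral_const,
    volume_cell, smul_eq_mul]

lemma nonempty_cell (j n : ℤ) : (n : ℝ) * (2 : ℝ) ^ (-j) ∈ cell j n := mem_cell.2 (dix_left j n)

lemma integral_cell_hav (j n : ℤ) (f : ℝ → ℝ) :
    ∫ s in cell j n, hav j f s = ∫ s in cell j n, f s := by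
  rw [integral_cell_of_lev (lev_hav j f) (nonempty_cell j n), hav_of_mem (nonempty_cell j n),
    ← mul_assoc, mul_comm ((2 : ℝ) ^ (-j)), tz_mul, one_mul]

lemma integrableOn_cell_of_lev {j : ℤ} {c : ℝ → ℝ} (h : Lev j c) (n : ℤ) :
    IntegrableOn c (cell j n) := by
  have h1 : IntegrableOn (fun _ : ℝ => c ((n : ℝ) * (2 : ℝ) ^ (-j))) (cell j n) :=
    integrableOn_const (volume_cell_ne_top j n)
  exact h1.congr_fun (fun s hs => (const_on_cell h (nonempty_cell j n) s hs).symm)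
    (measurableSet_cell _ _)

lemma abs_integral_cell_le (j n : ℤ) (f : ℝ → ℝ) :
    |∫ s in cell j n, f s| ≤ ∫ s in cell j n, |f s| := by
  simpa using norm_integral_le_integral_norm (μ := volume.restrict (cell j n)) f

lemma integrable_hav {f : ℝ → ℝ} (hf : Integrable f) (j : ℤ) : Integrable (hav j f) := by
  rw [← integrableOn_univ, ← iUnion_cell j]
  refine integrableOn_iUnion_of_summable_integral_norm
    (fun n => integrableOn_cell_of_lev (lev_hav j f) n) ?_
  have h1 : HasSum (fun n => ∫ s in cell j n, |f s|) (∫ s in ⋃ n, cell j n, |f s|) :=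
    hasSum_integral_iUnion (fun n => measurableSet_cell j n) (disjoint_cell j)
      (by rw [iUnion_cell]; exact hf.abs.integrableOn)
  refine Summable.of_nonneg_of_le (fun n => integral_nonneg fun _ => norm_nonneg _) (fun n => ?_)
    h1.summable
  have h2 : Lev j (fun s => ‖hav j f s‖) := fun y y' hy => by
    show ‖hav j f y‖ = ‖hav j f y'‖
    rw [lev_hav j f y y' hy]
  rw [integral_cell_of_lev h2 (nonempty_cell j n), hav_of_mem (nonempty_cell j n), norm_mul,
    Real.norm_of_nonneg (tzp j).le, ← mul_assoc, mul_comm ((2 : ℝ) ^ (-j)), tz_mul, one_mul]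
  exact abs_integral_cell_le j n f

lemma integral_hav {f : ℝ → ℝ} (hf : Integrable f) (j : ℤ) : ∫ y, hav j f y = ∫ y, f y := by
  have h1 : HasSum (fun n => ∫ s in cell j n, f s) (∫ s in ⋃ n, cell j n, f s) :=
    hasSum_integral_iUnion (fun n => measurableSet_cell j n) (disjoint_cell j)
      (by rw [iUnion_cell]; exact hf.integrableOn)
  have h2 : HasSum (fun n => ∫ s in cell j n, hav j f s) (∫ s in ⋃ n, cell j n, hav j f s) :=
    hasSum_integral_iUnion (fun n => measurableSet_cell j n) (disjoint_cell j)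
      (by rw [iUnion_cell]; exact (integrable_hav hf j).integrableOn)
  rw [iUnion_cell, setIntegral_univ] at h1 h2
  simp_rw [integral_cell_hav] at h2
  exact h2.unique h1

/-- bounded measurable -/
structure Bd (f : ℝ → ℝ) (M : ℝ) : Prop where
  meas : Measurable f
  bdd : ∀ y, |f y| ≤ M

lemma Bd.integrableOn {f : ℝ → ℝ} {M : ℝ} (h : Bd f M) (j n : ℤ) : IntegrableOn f (cell j n) := by
  have h1 : IntegrableOn (fun _ : ℝ => M) (cell j n) := integrableOn_const (volume_cell_ne_top j n)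
  exact Integrable.mono' h1 h.meas.aestronglyMeasurable (Filter.Eventually.of_forall h.bdd)

lemma Bd.hav {f : ℝ → ℝ} {M : ℝ} (h : Bd f M) (j : ℤ) : Bd (hav j f) M := by
  refine ⟨(lev_hav j f).measurable, fun y => ?_⟩
  rw [hav_cell, abs_mul, abs_of_pos (tzp j)]
  have h1 : |∫ s in cell j (dix j y), f s| ≤ ∫ s in cell j (dix j y), M := by
    refine (abs_integral_cell_le _ _ _).trans ?_
    exact setIntegral_mono (h.integrableOn _ _).abs
      (integrableOn_const (volume_cell_ne_top _ _)) h.bdd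
  rw [setIntegral_const, volume_cell, smul_eq_mul] at h1
  calc (2 : ℝ) ^ j * |∫ s in cell j (dix j y), f s| ≤ (2 : ℝ) ^ j * ((2 : ℝ) ^ (-j) * M) :=
        mul_le_mul_of_nonneg_left h1 (tzp j).le
    _ = M := by rw [← mul_assoc, tz_mul, one_mul]

/-- tower property -/
lemma hav_hav {f : ℝ → ℝ} {M : ℝ} (h : Bd f M) (j : ℤ) (y : ℝ) :
    hav j (hav (j + 1) f) y = hav j f y := by
  rw [hav_cell, hav_cell]
  congr 1
  set n := dix j y
  have hd : Disjoint (cell (j + 1) (2 * n)) (cell (j + 1) (2 * n + 1)) :=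
    disjoint_cell (j + 1) (by omega)
  rw [cell_split, setIntegral_union hd (measurableSet_cell _ _)
    ((h.hav (j + 1)).integrableOn _ _) ((h.hav (j + 1)).integrableOn _ _),
    setIntegral_union hd (measurableSet_cell _ _) (h.integrableOn _ _) (h.integrableOn _ _),
    integral_cell_hav, integral_cell_hav]

/-- `∫ c f = ∫ c (hav j f)` for `c` constant on the cells -/
lemma integral_lev_mul {j : ℤ} {c f : ℝ → ℝ} {M : ℝ} (hc : Lev j c) (hci : Integrable c)
    (hf : Bd f M) : ∫ y, c y * f y = ∫ y, c y * hav j f y := by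
  have h1 : Integrable (fun y => c y * f y) := by
    have := hci.bdd_mul (c := M) hf.meas.aestronglyMeasurable (Filter.Eventually.of_forall hf.bdd)
    simpa [mul_comm] using this
  rw [← integral_hav h1 j]
  exact integral_congr_ae (Filter.Eventually.of_forall fun y => hav_mul hc f y)

end Vale.Agent.P112.DEC
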