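import Vale.Agent.P112.H694.BandOut
import Vale.Agent.P112.F30.Defs
import Vale.Agent.P112.H213.Bk

/-!
# P112: the composition. One density level, the uniform bound and the gain of chapter (G)
give the restricted bound with logarithmic gain, hence `BandBound`, hence the whole of Question 1.
-/

open MeasureTheory Set Filter Topology
open scoped ENNReal

set_option linter.dupNamespace false

namespace Vale.Agent.P112.H889

open Vale.Agent.P112.T Vale.Agent.P112.F30 Vale.Agent.P112.H694.BO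

variable {M : ℕ}

/-- **The target of chapter (G)**: on one density level `ν` with `2 ^ ν ≤ (1 + Λ) ^ B`,
`Λ = log (|supp g| / |supp f|) ≥ 0`, there is a gain `(1 + Λ) ^ (-3)`. -/
def Gain (e : ℝ) (κ : Ker M) : Prop := ∀ B : ℕ, ∃ C : ℝ, 0 ≤ C ∧
  ∀ u : ℝ × ℝ → ℝ, Field u → (∀ x y y', |u (x, y) - u (x, y')| ≤ e * |y - y'|) →
    ∀ (n : ℕ) (f g : ℝ × ℝ → ℝ), Nice f → Nice g → (∀ z, |f z| ≤ 1) → (∀ z, |g z| ≤ 1) →
    (∀ z, f z ≠ 0 → 1 / 2 ≤ |f z|) → (∀ z, g z ≠ 0 → 1 / 2 ≤ |g z|) →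
    (∀ z, g z ≠ 0 → z.1 ∈ Ico (0:ℝ) 1) →
    0 < volume.real (Function.support f) → 0 < volume.real (Function.support g) →
    volume.real (Function.support f) ≤ volume.real (Function.support g) →
    ∀ ν : ℕ, (2:ℝ) ^ ν ≤ (1 + Real.log (volume.real (Function.support g) /
          volume.real (Function.support f))) ^ B →
      |∫ z, f z * κ.FS u g (Pd u {z | g z ≠ 0} 4 n ν) n z| ≤
        C * (√(volume.real (Function.support f)) * √(volume.real (Function.support g))) /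
        (1 + Real.log (volume.real (Function.support g) /
          volume.real (Function.support f))) ^ 3

/-! ### Elementary facts -/

theorem supp_bdd {g : ℝ × ℝ → ℝ} (hg : Nice g) :
    ∃ r : ℝ, ∀ z ∈ {z | g z ≠ 0}, |z.1| ≤ r ∧ |z.2| ≤ r := by
  obtain ⟨r, hr⟩ := hg.supp
  refine ⟨r, fun z hz => ?_⟩
  by_contra hc
  apply hz
  apply hr
  rw [not_and_or, not_le, not_le] at hc
  exact hc.imp le_of_lt le_of_lt

theorem supp_fin {g : ℝ × ℝ → ℝ} (hg : Nice g) : volume (Function.support g) < ⊤ := by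
  obtain ⟨r, hr⟩ := supp_bdd hg
  have hK : IsCompact (Icc (-r) r ×ˢ Icc (-r) r : Set (ℝ × ℝ)) := isCompact_Icc.prod isCompact_Icc
  refine lt_of_le_of_lt (measure_mono ?_) hK.measure_lt_top
  intro z hz
  exact ⟨mem_Icc.2 (abs_le.1 (hr z hz).1), mem_Icc.2 (abs_le.1 (hr z hz).2)⟩

theorem real_pos {g : ℝ × ℝ → ℝ} (hg : Nice g) (h : 0 < volume (Function.support g)) :
    0 < volume.real (Function.support g) :=
  ENNReal.toReal_pos h.ne' (supp_fin hg).ne

/-- Cauchy-Schwarz for nice functions. -/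
theorem cs {a b : ℝ × ℝ → ℝ} (ha : Nice a) (hb : Nice b) :
    (∫ z, a z * b z) ^ 2 ≤ (∫ z, a z ^ 2) * ∫ z, b z ^ 2 := by
  have hA := ha.sq.integrable
  have hB := hb.sq.integrable
  have hAB := (ha.mul hb).integrable
  have key : ∀ t : ℝ, 0 ≤ (∫ z, b z ^ 2) * (t * t) + (-(2 * ∫ z, a z * b z)) * t +
      ∫ z, a z ^ 2 := by
    intro t
    have h0 : 0 ≤ ∫ z, (a z - t * b z) ^ 2 := integral_nonneg fun _ => sq_nonneg _
    have h1 : ∫ z, (a z - t * b z) ^ 2 =
        ∫ z, ((t * t) * b z ^ 2 + (-(2 * t)) * (a z * b z) + a z ^ 2) := by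
      congr 1; ext z; ring
    have h2 : ∫ z, ((t * t) * b z ^ 2 + (-(2 * t)) * (a z * b z) + a z ^ 2) =
        (∫ z, ((t * t) * b z ^ 2 + (-(2 * t)) * (a z * b z))) + ∫ z, a z ^ 2 :=
      integral_add ((hB.const_mul _).add (hAB.const_mul _)) hA
    have h3 : ∫ z, ((t * t) * b z ^ 2 + (-(2 * t)) * (a z * b z)) =
        (∫ z, (t * t) * b z ^ 2) + ∫ z, (-(2 * t)) * (a z * b z) :=
      integral_add (hB.const_mul _) (hAB.const_mul _)
    rw [h1, h2, h3, integral_const_mul, integral_const_mul] at h0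
    linarith
  have := discrim_le_zero key
  unfold discrim at this
  nlinarith

theorem int_sq_le_supp {f : ℝ × ℝ → ℝ} (hf : Nice f) (h1 : ∀ z, |f z| ≤ 1) :
    ∫ z, f z ^ 2 ≤ volume.real (Function.support f) := by
  have hm := measurableSet_support hf.meas
  have h : ∫ z, (Function.support f).indicator (fun _ => (1:ℝ)) z =
      volume.real (Function.support f) := by
    rw [integral_indicator hm]; simp
  rw [← h]
  apply integral_mono hf.sq.integrable
  · exact (integrable_indicator_iff hm).2 (integrableOn_const (supp_fin hf).ne)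
  · intro z
    by_cases hz : z ∈ Function.support f
    · rw [indicator_of_mem hz]
      have := h1 z
      show f z ^ 2 ≤ 1
      rw [← sq_abs]
      exact pow_le_one₀ (abs_nonneg _) this
    · have h0 : f z = 0 := by simpa using hz
      rw [indicator_of_notMem hz]
      simp [h0]

/-- Bilinear form bounded by the support of `f`. -/
theorem bil_f {f Φ : ℝ × ℝ → ℝ} (hf : Nice f) (hΦ : Nice Φ) (h1 : ∀ z, |f z| ≤ 1) :
    |∫ z, f z * Φ z| ≤ √(volume.real (Function.support f)) * √(∫ z, Φ z ^ 2) := by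
  rw [← Real.sqrt_mul measureReal_nonneg]
  apply Real.abs_le_sqrt
  refine (cs hf hΦ).trans ?_
  exact mul_le_mul_of_nonneg_right (int_sq_le_supp hf h1)
    (integral_nonneg fun z => sq_nonneg (Φ z))

/-- Bilinear form bounded by a set carrying `Φ`. -/
theorem bil_Φ {f Φ : ℝ × ℝ → ℝ} (hf : Nice f) (hΦ : Nice Φ) (h1 : ∀ z, |f z| ≤ 1) {W : ℝ}
    (hW : 0 ≤ W) (hs : volume (Function.support Φ) ≤ ENNReal.ofReal W) :
    |∫ z, f z * Φ z| ≤ √W * √(∫ z, Φ z ^ 2) := by
  have hm := measurableSet_support hΦ.meas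
  have e1 : ∫ z, f z * Φ z = ∫ z, (Function.support Φ).indicator f z * Φ z := by
    congr 1; ext z
    by_cases hz : z ∈ Function.support Φ
    · rw [indicator_of_mem hz]
    · have : Φ z = 0 := by simpa using hz
      rw [this, mul_zero, mul_zero]
  rw [e1]
  have hf' := hf.indicator hm
  have h1' : ∀ z, |(Function.support Φ).indicator f z| ≤ 1 := by
    intro z
    by_cases hz : z ∈ Function.support Φ
    · rw [indicator_of_mem hz]; exact h1 z
    · rw [indicator_of_notMem hz]; simp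
  refine (bil_f hf' hΦ h1').trans ?_
  gcongr
  refine ENNReal.toReal_le_of_le_ofReal hW (le_trans (measure_mono ?_) hs)
  intro z hz
  by_contra hc
  apply hz
  rw [indicator_of_notMem hc]

/-! ### The levels -/

theorem dens_zero_null {u : ℝ × ℝ → ℝ} {E : Set (ℝ × ℝ)} {p : ℕ} (j : ℕ) :
    volume {z | z ∈ E ∧ dens u E p z j = 0} = 0 := by
  have hsub : {z | z ∈ E ∧ dens u E p z j = 0} ⊆
      ⋃ d ∈ {d : ℕ × ℤ × ℤ × ℤ | volume (Et u E d) = 0}, Et u E d := by
    rintro z ⟨hz, hd⟩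
    set d : ℕ × ℤ × ℤ × ℤ := (j, q 0 j z.1, ⌊u z / 2 ^ j⌋,
      ⌊z.2 - (⌊u z / 2 ^ j⌋ : ℤ) * 2 ^ j * z.1⌋) with hdd
    have hmem : z ∈ Et u E d := ⟨hz, rfl, rfl, rfl⟩
    simp only [mem_iUnion]
    refine ⟨d, ?_, hmem⟩
    unfold dens at hd
    rw [ENNReal.iSup_eq_zero] at hd
    have h1 := hd d
    rw [if_pos ⟨le_rfl, rfl⟩, ENNReal.div_eq_zero_iff] at h1
    rcases h1 with h1 | h1
    · rcases mul_eq_zero.1 h1 with h2 | h2
      · exact h2
      · exact absurd h2 (by positivity)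
    · exact absurd h1 ENNReal.ofReal_ne_top
  refine measure_mono_null hsub ?_
  rw [measure_biUnion_null_iff (Set.to_countable _)]
  intro d hd
  exact hd

theorem Plow_zero {u : ℝ × ℝ → ℝ} {E : Set (ℝ × ℝ)} {p n : ℕ}
    (h1 : ∀ z ∈ E, ∀ j < n, dens u E p z j ≤ 1) {j : ℕ} (hj : j < n) :
    Plow u E p n 0 j = E := by
  ext z
  constructor
  · exact fun h => h.1
  · intro h
    exact ⟨h, hj, by simpa using h1 z h j hj⟩

theorem Plow_succ (u : ℝ × ℝ → ℝ) (E : Set (ℝ × ℝ)) (p n ν j : ℕ) :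
    Plow u E p n ν j = Pd u E p n ν j ∪ Plow u E p n (ν + 1) j := by
  ext z
  constructor
  · rintro ⟨h1, h2, h3⟩
    by_cases h : (1 / 2 : ℝ≥0∞) ^ (ν + 1) < dens u E p z j
    · exact Or.inl ⟨h1, h2, h, h3⟩
    · exact Or.inr ⟨h1, h2, not_lt.1 h⟩
  · rintro (⟨h1, h2, _, h4⟩ | ⟨h1, h2, h3⟩)
    · exact ⟨h1, h2, h4⟩
    · refine ⟨h1, h2, h3.trans ?_⟩
      exact pow_le_pow_right_of_le_one' (by norm_num) (Nat.le_succ _)

theorem Pd_disj_Plow (u : ℝ × ℝ → ℝ) (E : Set (ℝ × ℝ)) (p n ν j : ℕ) :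
    Disjoint (Pd u E p n ν j) (Plow u E p n (ν + 1) j) := by
  rw [Set.disjoint_left]
  rintro z ⟨_, _, h3, _⟩ ⟨_, _, h3'⟩
  exact absurd h3' (not_le.2 h3)

/-! ### Testing against `f` -/

theorem T_bdd (κ : Ker M) (u : ℝ × ℝ → ℝ) (j : ℕ) {f : ℝ × ℝ → ℝ} (hf : Nice f) :
    ∃ D, 0 ≤ D ∧ ∀ z, |κ.T u j f z| ≤ D := by
  obtain ⟨D, hD, hk⟩ := κ.k_bdd
  refine ⟨D * 2 ^ j * ∫ ζ, |f ζ|, by
    have : 0 ≤ ∫ ζ, |f ζ| := integral_nonneg fun _ => abs_nonneg _
    positivity, fun z => ?_⟩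
  unfold Ker.T
  calc |∫ ζ, κ.k j (u z) z ζ * f ζ| ≤ ∫ ζ, D * 2 ^ j * |f ζ| := by
        rw [← Real.norm_eq_abs]
        refine norm_integral_le_of_norm_le (hf.abs.integrable.const_mul _) ?_
        refine Eventually.of_forall fun ζ => ?_
        rw [Real.norm_eq_abs, abs_mul]
        gcongr
        exact hk _ _ _ _
    _ = D * 2 ^ j * ∫ ζ, |f ζ| := integral_const_mul _ _

theorem integrable_gT (κ : Ker M) {u : ℝ × ℝ → ℝ} (hu : Field u) (j : ℕ) {f g : ℝ × ℝ → ℝ}
    (hf : Nice f) (hg : Nice g) : Integrable fun z => g z * κ.T u j f z := by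
  obtain ⟨D, _, hD⟩ := T_bdd κ u j hf
  exact hg.integrable.mul_bdd (c := D) (T_meas κ hu.meas j hf).aestronglyMeasurable
    (Eventually.of_forall fun z => by simpa using hD z)

theorem int_f_FS (κ : Ker M) {u : ℝ × ℝ → ℝ} (hu : Field u) {f g : ℝ × ℝ → ℝ} (hf : Nice f)
    (hg : Nice g) {E : ℕ → Set (ℝ × ℝ)} (hE : ∀ j, MeasurableSet (E j)) (n : ℕ) :
    ∫ z, f z * κ.FS u g E n z = ∑ j ∈ Finset.range n, ∫ z in E j, g z * κ.T u j f z := by
  have h1 : ∀ z, f z * κ.FS u g E n z =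
      ∑ j ∈ Finset.range n, κ.S u j ((E j).indicator g) z * f z := by
    intro z
    unfold Ker.FS
    rw [mul_comm, Finset.sum_mul]
  simp_rw [h1]
  rw [integral_finsetSum]
  · refine Finset.sum_congr rfl fun j _ => ?_
    rw [κ.integral_S_mul' hu j (hg.indicator (hE j)) hf, integral_indicator_mul (hE j)]
  · intro j _
    exact ((κ.S_nice hu j (hg.indicator (hE j))).mul hf).integrable

theorem int_Tn (κ : Ker M) {u : ℝ × ℝ → ℝ} (hu : Field u) {f g : ℝ × ℝ → ℝ} (hf : Nice f)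
    (hg : Nice g) (n : ℕ) :
    ∫ z, Tn κ u n f z * g z = ∑ j ∈ Finset.range n, ∫ z, g z * κ.T u j f z := by
  have h1 : ∀ z, Tn κ u n f z * g z = ∑ j ∈ Finset.range n, g z * κ.T u j f z := by
    intro z
    unfold Tn
    rw [mul_comm, Finset.mul_sum]
  simp_rw [h1]
  rw [integral_finsetSum]
  intro j _
  exact integrable_gT κ hu j hf hg

theorem tail (κ : Ker M) {u : ℝ × ℝ → ℝ} (hu : Field u) {f g : ℝ × ℝ → ℝ} (hf : Nice f)
    (hg : Nice g) {n p : ℕ} (hm : ∀ ν j, MeasurableSet (Plow u {z | g z ≠ 0} p n ν j)) (j : ℕ) :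
    Tendsto (fun ν => ∫ z in Plow u {z | g z ≠ 0} p n ν j, g z * κ.T u j f z) atTop (𝓝 0) := by
  have hanti : Antitone fun ν => Plow u {z | g z ≠ 0} p n ν j := by
    refine antitone_nat_of_succ_le fun ν => ?_
    rw [Plow_succ u _ p n ν j]
    exact subset_union_right
  have h := hanti.tendsto_setIntegral (μ := volume) (f := fun z => g z * κ.T u j f z)
    (fun ν => hm ν j) (integrable_gT κ hu j hf hg).integrableOn
  have h0 : ∫ z in ⋂ ν, Plow u {z | g z ≠ 0} p n ν j, g z * κ.T u j f z = 0 := by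
    apply setIntegral_measure_zero
    refine measure_mono_null ?_ (dens_zero_null (u := u) (E := {z | g z ≠ 0}) (p := p) j)
    intro z hz
    rw [mem_iInter] at hz
    refine ⟨(hz 0).1, ?_⟩
    refine le_antisymm ?_ bot_le
    refine ge_of_tendsto' (ENNReal.tendsto_pow_atTop_nhds_zero_of_lt_one
      (show (1 / 2 : ℝ≥0∞) < 1 by norm_num)) fun ν => (hz ν).2.2
  rwa [h0] at h

theorem split (κ : Ker M) {u : ℝ × ℝ → ℝ} (hu : Field u) {f g : ℝ × ℝ → ℝ} (hf : Nice f)
    (hg : Nice g) {n p : ℕ} (h1 : ∀ z ∈ {z | g z ≠ 0}, ∀ j < n, dens u {z | g z ≠ 0} p z j ≤ 1)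
    (hm : ∀ ν j, MeasurableSet (Plow u {z | g z ≠ 0} p n ν j)) {j : ℕ} (hj : j < n) (ν1 : ℕ) :
    ∫ z, g z * κ.T u j f z =
      ∑ ν ∈ Finset.range ν1, (∫ z in Pd u {z | g z ≠ 0} p n ν j, g z * κ.T u j f z) +
        ∫ z in Plow u {z | g z ≠ 0} p n ν1 j, g z * κ.T u j f z := by
  have hint := integrable_gT κ hu j hf hg
  induction ν1 with
  | zero =>
    rw [Finset.sum_range_zero, zero_add, Plow_zero h1 hj]
    symm
    apply setIntegral_eq_integral_of_forall_compl_eq_zero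
    intro z hz
    have : g z = 0 := by simpa using hz
    rw [this, zero_mul]
  | succ ν ih =>
    rw [ih, Finset.sum_range_succ, Plow_succ u _ p n ν j,
      setIntegral_union (Pd_disj_Plow _ _ _ _ _ _) (hm _ _) hint.integrableOn hint.integrableOn]
    ring

/-- The form is controlled by the levels. -/
theorem form_le (κ : Ker M) {u : ℝ × ℝ → ℝ} (hu : Field u) {f g : ℝ × ℝ → ℝ} (hf : Nice f)
    (hg : Nice g) {n p : ℕ} (h1 : ∀ z ∈ {z | g z ≠ 0}, ∀ j < n, dens u {z | g z ≠ 0} p z j ≤ 1)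
    (hm : ∀ ν j, MeasurableSet (Plow u {z | g z ≠ 0} p n ν j))
    (hd : ∀ ν j, MeasurableSet (Pd u {z | g z ≠ 0} p n ν j)) {X : ℝ}
    (hX : ∀ ν1, ∑ ν ∈ Finset.range ν1,
      |∫ z, f z * κ.FS u g (Pd u {z | g z ≠ 0} p n ν) n z| ≤ X) :
    |∫ z, Tn κ u n f z * g z| ≤ X := by
  have htail : Tendsto (fun ν1 => ∑ j ∈ Finset.range n,
      ∫ z in Plow u {z | g z ≠ 0} p n ν1 j, g z * κ.T u j f z) atTop (𝓝 0) := by
    have := tendsto_finsetSum (Finset.range n) fun j _ => tail κ hu hf hg hm j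
    simpa using this
  have hid : ∀ ν1, ∫ z, Tn κ u n f z * g z = ∑ ν ∈ Finset.range ν1,
      (∫ z, f z * κ.FS u g (Pd u {z | g z ≠ 0} p n ν) n z) +
      ∑ j ∈ Finset.range n, ∫ z in Plow u {z | g z ≠ 0} p n ν1 j, g z * κ.T u j f z := by
    intro ν1
    rw [int_Tn κ hu hf hg n]
    simp_rw [int_f_FS κ hu hf hg (hd _)]
    rw [Finset.sum_comm, ← Finset.sum_add_distrib]
    refine Finset.sum_congr rfl fun j hj => ?_
    exact split κ hu hf hg h1 hm (Finset.mem_range.1 hj) ν1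
  have hle : ∀ ν1, |∫ z, Tn κ u n f z * g z| ≤ X + |∑ j ∈ Finset.range n,
      ∫ z in Plow u {z | g z ≠ 0} p n ν1 j, g z * κ.T u j f z| := by
    intro ν1
    rw [hid ν1]
    refine (abs_add_le _ _).trans (add_le_add ?_ le_rfl)
    exact (Finset.abs_sum_le_sum_abs _ _).trans (hX ν1)
  have hlim := (tendsto_const_nhds (x := X)).add htail.abs
  rw [abs_zero, add_zero] at hlim
  exact ge_of_tendsto' hlim hle

/-! ### The support of one level -/

theorem q_eq_dist {τ : ℝ} {i : ℕ} {x y : ℝ} (h : q τ i x = q τ i y) : |x - y| ≤ 1 / 2 ^ i := by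
  unfold q at h
  have h1 := Int.abs_sub_lt_one_of_floor_eq_floor h
  have h2 : 2 ^ i * (x - τ) - 2 ^ i * (y - τ) = 2 ^ i * (x - y) := by ring
  rw [h2, abs_mul, abs_of_pos (by positivity : (0 : ℝ) < 2 ^ i)] at h1
  rw [le_div_iff₀ (by positivity)]
  linarith

/-- A sheared box. -/
def Bx (x0 l c s R : ℝ) : Set (ℝ × ℝ) := {ζ | |ζ.1 - x0| ≤ l ∧ |ζ.2 - (c + s * (ζ.1 - x0))| ≤ R}

theorem vol_Bx (x0 l c s R : ℝ) :
    volume (Bx x0 l c s R) ≤ ENNReal.ofReal (2 * l) * ENNReal.ofReal (2 * R) := by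
  have hm : MeasurableSet (Bx x0 l c s R) := by
    have e1 : Measurable fun ζ : ℝ × ℝ => |ζ.1 - x0| := by fun_prop
    have e2 : Measurable fun ζ : ℝ × ℝ => |ζ.2 - (c + s * (ζ.1 - x0))| := by fun_prop
    exact (measurableSet_le e1 measurable_const).inter (measurableSet_le e2 measurable_const)
  rw [Measure.volume_eq_prod, Measure.prod_apply hm]
  calc ∫⁻ x, volume (Prod.mk x ⁻¹' Bx x0 l c s R)
      ≤ ∫⁻ x, (Icc (x0 - l) (x0 + l)).indicator (fun _ => ENNReal.ofReal (2 * R)) x := by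
        apply lintegral_mono
        intro x
        by_cases hx : x ∈ Icc (x0 - l) (x0 + l)
        · rw [indicator_of_mem hx]
          refine (measure_mono (t := Icc (c + s * (x - x0) - R) (c + s * (x - x0) + R)) ?_).trans ?_
          · intro y hy
            obtain ⟨_, h2⟩ := hy
            obtain ⟨a1, a2⟩ := abs_le.1 h2
            exact ⟨by linarith, by linarith⟩
          · rw [Real.volume_Icc]
            apply le_of_eq
            congr 1
            ring
        · rw [indicator_of_notMem hx]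
          refine le_of_eq ?_
          have : (Prod.mk x ⁻¹' Bx x0 l c s R) = ∅ := by
            ext y
            simp only [mem_preimage, mem_empty_iff_false, iff_false]
            rintro ⟨h1, _⟩
            obtain ⟨a1, a2⟩ := abs_le.1 h1
            exact hx ⟨by linarith, by linarith⟩
          show volume (Prod.mk x ⁻¹' Bx x0 l c s R) = 0
          rw [this, measure_empty]
    _ = ENNReal.ofReal (2 * R) * volume (Icc (x0 - l) (x0 + l)) := by
        rw [lintegral_indicator measurableSet_Icc, setLIntegral_const]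
    _ = ENNReal.ofReal (2 * l) * ENNReal.ofReal (2 * R) := by
        rw [Real.volume_Icc, mul_comm]
        congr 2
        ring

/-- The support of one density level has measure `≤ C 4 ^ ν |supp g|`. -/
theorem supp_level (hD : StFD2 4) : ∃ C : ℝ, 0 ≤ C ∧ ∀ (κ : Ker M) (u : ℝ × ℝ → ℝ), Field u →
    ∀ g : ℝ × ℝ → ℝ, Nice g → ∀ n ν : ℕ,
    volume (Function.support (κ.FS u g (Pd u {z | g z ≠ 0} 4 n ν) n)) ≤
      ENNReal.ofReal (C * 4 ^ ν * volume.real (Function.support g)) := by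
  obtain ⟨C, hC1, hC⟩ := hD
  refine ⟨4 * (2 * (8 * C)) * 4, by positivity, ?_⟩
  intro κ u hu g hg n ν
  have hE : MeasurableSet {z | g z ≠ 0} := measurableSet_support hg.meas
  set S : ℝ := 2 ^ (ν + 1) with hS
  have hS1 : 1 ≤ S := one_le_pow₀ (by norm_num)
  obtain ⟨ι, _, T, h1, -, -, -, h5⟩ := hC u hu {z | g z ≠ 0} hE (supp_bdd hg) n ν S 1 le_rfl hS1
    (le_self_pow₀ hS1 (by norm_num))
  set R : ℝ := 8 * C * S with hR
  have hsub : Function.support (κ.FS u g (Pd u {z | g z ≠ 0} 4 n ν) n) ⊆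
      ⋃ m, Bx (T.x m) (2 * (1 / 2) ^ T.j m) (T.y m) (T.s m) R := by
    intro ζ hζ
    have hζ' : κ.FS u g (Pd u {z | g z ≠ 0} 4 n ν) n ζ ≠ 0 := hζ
    unfold Ker.FS at hζ'
    obtain ⟨j, hj, hne⟩ := Finset.exists_ne_zero_of_sum_ne_zero hζ'
    unfold Ker.S at hne
    have : ∃ z, κ.k j (u z) z ζ * (Pd u {z | g z ≠ 0} 4 n ν j).indicator g z ≠ 0 := by
      by_contra hc
      push Not at hc
      exact hne (by simp [hc])
    obtain ⟨z, hz⟩ := this
    have hk0 := left_ne_zero_of_mul hz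
    have hzE : z ∈ Pd u {z | g z ≠ 0} 4 n ν j := by
      by_contra hc
      exact (right_ne_zero_of_mul hz) (indicator_of_notMem hc _)
    obtain ⟨hx, hy⟩ := κ.k_supp hk0
    obtain ⟨m, hm1, hm2, hm3, hm4⟩ := h5 j z hzE
    rw [mem_iUnion]
    refine ⟨m, ?_, ?_⟩
    · have a1 := q_eq_dist hm2
      have a2 : |z.1 - ζ.1| ≤ (1 / 2) ^ T.j m := by
        refine hx.trans ?_
        rw [one_div_pow]
        gcongr
        calc (2:ℝ) ^ T.j m ≤ 2 ^ j := pow_le_pow_right₀ (by norm_num) hm1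
          _ ≤ 8 * 2 ^ j := by linarith [pow_pos (two_pos (α := ℝ)) j]
      have a3 : ζ.1 - T.x m = -(z.1 - ζ.1) + (z.1 - T.x m) := by ring
      rw [a3]
      refine (abs_add_le _ _).trans ?_
      rw [abs_neg]
      rw [← one_div_pow] at a1
      linarith
    · have b1 : ζ.2 - (T.y m + T.s m * (ζ.1 - T.x m)) =
          (z.2 - T.line m z.1) - (z.2 - ζ.2 - (z.1 - ζ.1) * u z) -
            (z.1 - ζ.1) * (u z - T.s m) := by
        unfold Tops.line
        ring
      have b2 : |(z.1 - ζ.1) * (u z - T.s m)| ≤ C * S := by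
        rw [abs_mul]
        calc |z.1 - ζ.1| * |u z - T.s m| ≤ 1 / (8 * 2 ^ j) * (C * S * 2 ^ j) := by gcongr
          _ = C * S / 8 := by field_simp
          _ ≤ C * S := div_le_self (by positivity) (by norm_num)
      rw [b1]
      have hCS : 1 ≤ C * S := one_le_mul_of_one_le_of_one_le hC1 hS1
      have hCC : C ≤ C * S := le_mul_of_one_le_right (by linarith) hS1
      have b3 : C * (S + 1) = C * S + C := by ring
      rw [b3] at hm4
      obtain ⟨c1, c2⟩ := abs_le.1 hm4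
      obtain ⟨d1, d2⟩ := abs_le.1 hy
      obtain ⟨e1, e2⟩ := abs_le.1 b2
      have : R = 8 * (C * S) := by rw [hR]; ring
      exact abs_le.2 ⟨by linarith, by linarith⟩
  have hvol : ENNReal.ofReal (volume.real (Function.support g)) = volume {z | g z ≠ 0} :=
    ENNReal.ofReal_toReal (supp_fin hg).ne
  calc volume (Function.support (κ.FS u g (Pd u {z | g z ≠ 0} 4 n ν) n))
      ≤ ∑ m, volume (Bx (T.x m) (2 * (1 / 2) ^ T.j m) (T.y m) (T.s m) R) :=
        (measure_mono hsub).trans (measure_iUnion_fintype_le _ _)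
    _ ≤ ∑ m, ENNReal.ofReal (2 * (2 * (1 / 2) ^ T.j m)) * ENNReal.ofReal (2 * R) :=
        Finset.sum_le_sum fun m _ => vol_Bx _ _ _ _ _
    _ = ENNReal.ofReal (4 * (2 * R)) * ENNReal.ofReal (∑ m, (1 / 2) ^ T.j m) := by
        rw [← Finset.sum_mul, ← ENNReal.ofReal_sum_of_nonneg (fun _ _ => by positivity),
          ← ENNReal.ofReal_mul (by positivity), ← ENNReal.ofReal_mul (by positivity)]
        congr 1
        rw [← Finset.mul_sum, ← Finset.mul_sum]
        ring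
    _ ≤ ENNReal.ofReal (4 * (2 * R)) * (ENNReal.ofReal (2 ^ (ν + 1)) * volume {z | g z ≠ 0}) := by
        gcongr
    _ = ENNReal.ofReal (4 * (2 * (8 * C)) * 4 * 4 ^ ν * volume.real (Function.support g)) := by
        rw [← hvol, ← ENNReal.ofReal_mul (by positivity), ← ENNReal.ofReal_mul (by positivity)]
        congr 1
        rw [hR, hS]
        have : (4 : ℝ) ^ ν = 2 ^ ν * 2 ^ ν := by rw [← mul_pow]; norm_num
        rw [this, pow_succ]
        ring

end Vale.Agent.P112.H889
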