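import Vale.Agent.P112.H889.Dy

/-!
# P112, block DEC: the one-variable statements H1, H2, H3a, H3b, H4 (helper889)
-/

open MeasureTheory Set Filter Topology

namespace Vale.Agent.P112.DEC

lemma dr_sub_dl (j : ℤ) (y : ℝ) : dr j y - dl j y = (2 : ℝ) ^ (-j) := by
  unfold dr dl
  ring

lemma dl_le (j : ℤ) (y : ℝ) : dl j y ≤ y := ((dix_eq_iff j y _).1 rfl).1

lemma le_dr (j : ℤ) (y : ℝ) : y ≤ dr j y := ((dix_eq_iff j y _).1 rfl).2.le

lemma dl_lt_dr (j : ℤ) (y : ℝ) : dl j y < dr j y := by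
  have := dr_sub_dl j y
  have := tzp (-j)
  linarith

lemma Bd.ii {f : ℝ → ℝ} {M : ℝ} (h : Bd f M) (a b : ℝ) : IntervalIntegrable f volume a b := by
  rw [intervalIntegrable_iff]
  have h1 : IntegrableOn (fun _ : ℝ => M) (uIoc a b) := by
    rw [← intervalIntegrable_iff]
    exact intervalIntegrable_const
  exact Integrable.mono' h1 h.meas.aestronglyMeasurable (Eventually.of_forall h.bdd)

lemma Bd.abs {f : ℝ → ℝ} {M : ℝ} (h : Bd f M) : Bd (fun y => |f y|) M :=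
  ⟨h.meas.abs, fun y => by rw [abs_abs]; exact h.bdd y⟩

lemma Bd.nonneg {f : ℝ → ℝ} {M : ℝ} (h : Bd f M) : 0 ≤ M := (abs_nonneg _).trans (h.bdd 0)

lemma Bd.sq {f : ℝ → ℝ} {M : ℝ} (h : Bd f M) : Bd (fun y => f y ^ 2) (M ^ 2) :=
  ⟨h.meas.pow_const 2, fun y => by
    rw [abs_pow]
    exact pow_le_pow_left₀ (abs_nonneg _) (h.bdd y) 2⟩

lemma Bd.mul {f g : ℝ → ℝ} {M N : ℝ} (h : Bd f M) (h' : Bd g N) :
    Bd (fun y => f y * g y) (M * N) :=
  ⟨h.meas.mul h'.meas, fun y => by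
    rw [abs_mul]
    exact mul_le_mul (h.bdd y) (h'.bdd y) (abs_nonneg _) h.nonneg⟩

lemma Bd.sub {f g : ℝ → ℝ} {M N : ℝ} (h : Bd f M) (h' : Bd g N) :
    Bd (fun y => f y - g y) (M + N) :=
  ⟨h.meas.sub h'.meas, fun y => (abs_sub _ _).trans (add_le_add (h.bdd y) (h'.bdd y))⟩

lemma osc {g : ℝ → ℝ} {M a b s p : ℝ} (hg : Bd g M) (hs : s ∈ Icc a b) (hp : p ∈ Icc a b) :
    |∫ x in s..p, g x| ≤ ∫ x in a..b, |g x| := by
  have hab : a ≤ b := hs.1.trans hs.2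
  have h1 := intervalIntegral.norm_integral_le_integral_norm_uIoc (f := g) (μ := volume)
    (a := s) (b := p)
  refine h1.trans ?_
  rw [intervalIntegral.integral_of_le hab]
  refine setIntegral_mono_set ?_ (Eventually.of_forall fun x => norm_nonneg _) ?_
  · have := hg.abs.ii a b
    rw [intervalIntegrable_iff_integrableOn_Ioc_of_le hab] at this
    exact this
  · have h2 : uIoc s p ⊆ Ioc a b := by
      intro x hx
      rw [uIoc, mem_Ioc] at hx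
      exact ⟨(le_min hs.1 hp.1).trans_lt hx.1, hx.2.trans (max_le hs.2 hp.2)⟩
    exact LE.le.eventuallyLE h2

lemma cs {g : ℝ → ℝ} {M a b : ℝ} (hg : Bd g M) (hab : a < b) :
    (∫ x in a..b, |g x|) ^ 2 ≤ (b - a) * ∫ x in a..b, g x ^ 2 := by
  set c : ℝ := (∫ x in a..b, |g x|) / (b - a) with hc
  have hba : 0 < b - a := by linarith
  have h1 : 0 ≤ ∫ x in a..b, (|g x| - c) ^ 2 :=
    intervalIntegral.integral_nonneg hab.le fun x _ => sq_nonneg _
  have h2 : ∫ x in a..b, (|g x| - c) ^ 2 =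
      (∫ x in a..b, g x ^ 2) - 2 * c * (∫ x in a..b, |g x|) + (b - a) * c ^ 2 := by
    have h3 : ∀ x, (|g x| - c) ^ 2 = g x ^ 2 - 2 * c * |g x| + c ^ 2 := fun x => by
      rw [sub_sq, sq_abs]
      ring
    simp_rw [h3]
    rw [intervalIntegral.integral_add ((hg.sq.ii a b).sub ((hg.abs.ii a b).const_mul _))
      intervalIntegrable_const, intervalIntegral.integral_sub (hg.sq.ii a b)
      ((hg.abs.ii a b).const_mul _), intervalIntegral.integral_const_mul,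
      intervalIntegral.integral_const, smul_eq_mul]
  have h4 : ∫ x in a..b, |g x| = (b - a) * c := by
    rw [hc]
    field_simp
  rw [h2, h4] at h1
  rw [h4]
  nlinarith

lemma osc2 {g : ℝ → ℝ} {M a b s p : ℝ} (hg : Bd g M) (hab : a < b) (hs : s ∈ Icc a b)
    (hp : p ∈ Icc a b) : (∫ x in s..p, g x) ^ 2 ≤ (b - a) * ∫ x in a..b, g x ^ 2 := by
  refine le_trans ?_ (cs hg hab)
  rw [← sq_abs (∫ x in s..p, g x)]
  exact pow_le_pow_left₀ (abs_nonneg _) (osc hg hs hp) 2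

lemma BM.bd {f : ℝ → ℝ} (h : BM f) : ∃ M, Bd f M := by
  obtain ⟨M, hM⟩ := h.bdd
  exact ⟨M, h.meas, hM⟩

lemma BM.integrable {f : ℝ → ℝ} (h : BM f) : Integrable f := by
  obtain ⟨M, hM⟩ := h.bdd
  obtain ⟨R, hR⟩ := h.supp
  have h0 : IntegrableOn (fun _ : ℝ => M) (Icc (-R) R) := integrableOn_const (by simp)
  have h1 : IntegrableOn f (Icc (-R) R) :=
    Integrable.mono' h0 h.meas.aestronglyMeasurable (Eventually.of_forall hM)
  rwa [integrableOn_iff_integrable_of_support_subset] at h1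
  intro y hy
  by_contra h2
  apply hy
  apply hR
  rw [mem_Icc, ← abs_le, not_le] at h2
  exact h2.le

lemma BM.sq {f : ℝ → ℝ} (h : BM f) : BM (fun y => f y ^ 2) := by
  obtain ⟨M, hM⟩ := h.bd
  obtain ⟨R, hR⟩ := h.supp
  exact ⟨hM.sq.meas, ⟨_, hM.sq.bdd⟩, ⟨R, fun y hy => by rw [hR y hy]; norm_num⟩⟩

lemma BM.abs {f : ℝ → ℝ} (h : BM f) : BM (fun y => |f y|) := by
  obtain ⟨M, hM⟩ := h.bd
  obtain ⟨R, hR⟩ := h.supp
  exact ⟨hM.abs.meas, ⟨_, hM.abs.bdd⟩, ⟨R, fun y hy => by rw [hR y hy, abs_zero]⟩⟩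

lemma hav_zero_of {f : ℝ → ℝ} {R : ℝ} (hR : ∀ y, R ≤ |y| → f y = 0) {j : ℤ} {y : ℝ}
    (hy : R + (2 : ℝ) ^ (-j) ≤ |y|) : hav j f y = 0 := by
  unfold hav
  have h1 : ∫ s in (dl j y)..(dr j y), f s = ∫ s in (dl j y)..(dr j y), (0 : ℝ) := by
    refine intervalIntegral.integral_congr fun s hs => ?_
    rw [uIcc_of_le (dl_lt_dr j y).le] at hs
    apply hR
    have h2 := dr_sub_dl j y
    have h3 := dl_le j y
    have h4 := le_dr j y
    have h5 : |y - s| ≤ (2 : ℝ) ^ (-j) := by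
      rw [abs_le]
      constructor <;> linarith [hs.1, hs.2]
    have h6 := abs_sub_abs_le_abs_sub y s
    linarith
  rw [h1]
  simp

lemma BM.hav {f : ℝ → ℝ} (h : BM f) (j : ℤ) : BM (hav j f) := by
  obtain ⟨M, hM⟩ := h.bd
  obtain ⟨R, hR⟩ := h.supp
  exact ⟨(hM.hav j).meas, ⟨_, (hM.hav j).bdd⟩, ⟨_, fun y hy => hav_zero_of hR hy⟩⟩

/-- `hav j f y` as an interval integral -/
lemma int_eq_hav (j : ℤ) (f : ℝ → ℝ) (y : ℝ) :
    ∫ s in (dl j y)..(dr j y), f s = (2 : ℝ) ^ (-j) * hav j f y := by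
  unfold hav
  rw [← mul_assoc, mul_comm ((2 : ℝ) ^ (-j)), tz_mul, one_mul]

lemma sub_hav {f : ℝ → ℝ} {M : ℝ} (hf : Bd f M) (j : ℤ) (y c : ℝ) :
    c - hav j f y = (2 : ℝ) ^ j * ∫ s in (dl j y)..(dr j y), (c - f s) := by
  rw [intervalIntegral.integral_sub intervalIntegrable_const (hf.ii _ _),
    intervalIntegral.integral_const, dr_sub_dl, smul_eq_mul, mul_sub, ← mul_assoc, tz_mul, one_mul]
  rfl

lemma abs_sub_hav_le {f : ℝ → ℝ} {M : ℝ} (hf : Bd f M) (j : ℤ) (y c K : ℝ)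
    (h : ∀ s ∈ Icc (dl j y) (dr j y), |c - f s| ≤ K) : |c - hav j f y| ≤ K := by
  rw [sub_hav hf, abs_mul, abs_of_pos (tzp j)]
  have h1 : ‖∫ s in (dl j y)..(dr j y), (c - f s)‖ ≤ K * |dr j y - dl j y| := by
    refine intervalIntegral.norm_integral_le_of_norm_le_const fun s hs => ?_
    rw [uIoc_of_le (dl_lt_dr j y).le] at hs
    exact h s ⟨hs.1.le, hs.2⟩
  rw [dr_sub_dl, abs_of_pos (tzp (-j)), Real.norm_eq_abs] at h1
  calc (2 : ℝ) ^ j * |∫ s in (dl j y)..(dr j y), (c - f s)|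
      ≤ (2 : ℝ) ^ j * (K * (2 : ℝ) ^ (-j)) := mul_le_mul_of_nonneg_left h1 (tzp j).le
    _ = K * ((2 : ℝ) ^ j * (2 : ℝ) ^ (-j)) := by ring
    _ = K := by rw [tz_mul, mul_one]

theorem h1 : H1 := by
  intro j G g hG hg hGg
  obtain ⟨M, hM⟩ := hG.bd
  obtain ⟨N, hN⟩ := hg.bd
  have h1 : ∀ y, (G y - hav j G y) ^ 2 ≤
      ((2 : ℝ) ^ (-j)) ^ 2 * hav j (fun s => g s ^ 2) y := by
    intro y
    set K : ℝ := (dr j y - dl j y) * ∫ x in (dl j y)..(dr j y), g x ^ 2 with hK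
    have hK0 : 0 ≤ K := mul_nonneg (by rw [dr_sub_dl]; exact (tzp _).le)
      (intervalIntegral.integral_nonneg (dl_lt_dr j y).le fun x _ => sq_nonneg _)
    have h2 : |G y - hav j G y| ≤ Real.sqrt K := by
      refine abs_sub_hav_le hM j y (G y) _ fun s hs => ?_
      rw [hGg s y]
      refine Real.abs_le_sqrt ?_
      exact osc2 hN (dl_lt_dr j y) hs ⟨dl_le j y, le_dr j y⟩
    have h3 : (G y - hav j G y) ^ 2 ≤ K := by
      rw [← sq_abs, ← Real.sq_sqrt hK0]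
      exact pow_le_pow_left₀ (abs_nonneg _) h2 2
    refine h3.trans (le_of_eq ?_)
    rw [hK, dr_sub_dl, int_eq_hav]
    ring
  calc ∫ y, (G y - hav j G y) ^ 2
      ≤ ∫ y, ((2 : ℝ) ^ (-j)) ^ 2 * hav j (fun s => g s ^ 2) y :=
        integral_mono_of_nonneg (Eventually.of_forall fun y => sq_nonneg _)
          ((integrable_hav hg.sq.integrable j).const_mul _) (Eventually.of_forall h1)
    _ = ((2 : ℝ) ^ (-j)) ^ 2 * ∫ y, g y ^ 2 := by
        rw [integral_const_mul, integral_hav hg.sq.integrable]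

/-- trace inequality -/
lemma trace {G g : ℝ → ℝ} {M N a b p : ℝ} (hG : Bd G M) (hg : Bd g N) (hab : a < b)
    (hGg : ∀ y y', G y' - G y = ∫ s in y..y', g s) (hp : p ∈ Icc a b) :
    G p ^ 2 ≤ 2 * (b - a)⁻¹ * (∫ s in a..b, G s ^ 2) + 2 * (b - a) * ∫ s in a..b, g s ^ 2 := by
  set K : ℝ := (b - a) * ∫ s in a..b, g s ^ 2 with hK
  have hba : 0 < b - a := by linarith
  have h1 : ∀ s ∈ Icc a b, G p ^ 2 ≤ 2 * G s ^ 2 + 2 * K := by
    intro s hs
    have h2 := osc2 hg hab hs hp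
    rw [← hGg s p] at h2
    nlinarith [sq_nonneg (G p - G s - G s)]
  have h3 : ∫ s in a..b, G p ^ 2 ≤ ∫ s in a..b, (2 * G s ^ 2 + 2 * K) :=
    intervalIntegral.integral_mono_on hab.le intervalIntegrable_const
      (((hG.sq.ii a b).const_mul 2).add intervalIntegrable_const) h1
  rw [intervalIntegral.integral_const, intervalIntegral.integral_add
    ((hG.sq.ii a b).const_mul 2) intervalIntegrable_const, intervalIntegral.integral_const_mul,
    intervalIntegral.integral_const, smul_eq_mul, smul_eq_mul] at h3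
  have h4 : (b - a)⁻¹ * ((b - a) * G p ^ 2) ≤
      (b - a)⁻¹ * (2 * (∫ s in a..b, G s ^ 2) + (b - a) * (2 * K)) :=
    mul_le_mul_of_nonneg_left h3 (inv_nonneg.2 hba.le)
  rw [← mul_assoc, inv_mul_cancel₀ hba.ne', one_mul] at h4
  refine h4.trans (le_of_eq ?_)
  rw [hK]
  field_simp

lemma sub_mono {f : ℝ → ℝ} {M a b a' b' : ℝ} (hf : Bd f M) (h0 : ∀ x, 0 ≤ f x) (ha : a ≤ a')
    (hab : a' ≤ b') (hb : b' ≤ b) : ∫ s in a'..b', f s ≤ ∫ s in a..b, f s := by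
  refine intervalIntegral.integral_mono_interval ha hab hb (Eventually.of_forall h0) (hf.ii a b)

theorem h2 : H2 := by
  refine ⟨8, by norm_num, ?_⟩
  intro j k hjk G g hG hg hGg
  obtain ⟨M, hM⟩ := hG.bd
  obtain ⟨N, hN⟩ := hg.bd
  have hkj : (2 : ℝ) ^ (-k) ≤ (2 : ℝ) ^ (-j) := zpow_le_zpow_right₀ (by norm_num) (by omega)
  have hk0 := tzp (-k)
  have hinv : ((2 : ℝ) ^ (-k))⁻¹ = (2 : ℝ) ^ k := by rw [zpow_neg, inv_inv]
  have key : ∀ y, hav j g y ^ 2 ≤ 8 * (2 : ℝ) ^ j * ((2 : ℝ) ^ k * hav j (fun s => G s ^ 2) y +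
      (2 : ℝ) ^ (-k) * hav j (fun s => g s ^ 2) y) := by
    intro y
    have hd := dr_sub_dl j y
    set a := dl j y with ha
    set b := dr j y with hb
    have e1 : ∀ p a' b', a ≤ a' → b' ≤ b → b' - a' = (2 : ℝ) ^ (-k) → p ∈ Icc a' b' →
        G p ^ 2 ≤ 2 * (2 : ℝ) ^ k * (∫ s in a..b, G s ^ 2) +
          2 * (2 : ℝ) ^ (-k) * ∫ s in a..b, g s ^ 2 := by
      intro p a' b' h1 h2 h3 h4
      have hab' : a' < b' := by linarith
      have h5 := trace hM hN hab' hGg h4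
      rw [h3, hinv] at h5
      have h6 := sub_mono hM.sq (fun x => sq_nonneg _) h1 hab'.le h2
      have h7 := sub_mono hN.sq (fun x => sq_nonneg _) h1 hab'.le h2
      have h8 := mul_le_mul_of_nonneg_left h6 (by positivity : (0 : ℝ) ≤ 2 * (2 : ℝ) ^ k)
      have h9 := mul_le_mul_of_nonneg_left h7 (by positivity : (0 : ℝ) ≤ 2 * (2 : ℝ) ^ (-k))
      linarith
    have e2 := e1 a a (a + (2 : ℝ) ^ (-k)) le_rfl (by linarith) (by ring) ⟨le_rfl, by linarith⟩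
    have e3 := e1 b (b - (2 : ℝ) ^ (-k)) b (by linarith) le_rfl (by ring) ⟨by linarith, le_rfl⟩
    have e4 : hav j g y = (2 : ℝ) ^ j * (G b - G a) := by
      rw [hGg a b]
      rfl
    have e5 := int_eq_hav j (fun s => G s ^ 2) y
    have e6 := int_eq_hav j (fun s => g s ^ 2) y
    rw [← ha, ← hb] at e5 e6
    rw [e5, e6] at e2 e3
    set P := hav j (fun s => G s ^ 2) y
    set Q := hav j (fun s => g s ^ 2) y
    have e7 : (G b - G a) ^ 2 ≤ 8 * ((2 : ℝ) ^ k * ((2 : ℝ) ^ (-j) * P) +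
        (2 : ℝ) ^ (-k) * ((2 : ℝ) ^ (-j) * Q)) := by
      nlinarith [sq_nonneg (G b + G a)]
    rw [e4, mul_pow]
    have e8 : ((2 : ℝ) ^ j) ^ 2 * (G b - G a) ^ 2 ≤ ((2 : ℝ) ^ j) ^ 2 *
        (8 * ((2 : ℝ) ^ k * ((2 : ℝ) ^ (-j) * P) + (2 : ℝ) ^ (-k) * ((2 : ℝ) ^ (-j) * Q))) :=
      mul_le_mul_of_nonneg_left e7 (by positivity)
    refine e8.trans (le_of_eq ?_)
    have e9 := tz_mul j
    have : ((2 : ℝ) ^ j) ^ 2 *
        (8 * ((2 : ℝ) ^ k * ((2 : ℝ) ^ (-j) * P) + (2 : ℝ) ^ (-k) * ((2 : ℝ) ^ (-j) * Q))) =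
        8 * (2 : ℝ) ^ j * ((2 : ℝ) ^ j * (2 : ℝ) ^ (-j)) *
          ((2 : ℝ) ^ k * P + (2 : ℝ) ^ (-k) * Q) := by ring
    rw [this, e9]
    ring
  have i1 := (integrable_hav hG.sq.integrable j).const_mul ((2 : ℝ) ^ k)
  have i2 := (integrable_hav hg.sq.integrable j).const_mul ((2 : ℝ) ^ (-k))
  calc ∫ y, hav j g y ^ 2
      ≤ ∫ y, 8 * (2 : ℝ) ^ j * ((2 : ℝ) ^ k * hav j (fun s => G s ^ 2) y +
          (2 : ℝ) ^ (-k) * hav j (fun s => g s ^ 2) y) :=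
        integral_mono_of_nonneg (Eventually.of_forall fun y => sq_nonneg _)
          ((i1.add i2).const_mul _) (Eventually.of_forall key)
    _ = _ := by
        rw [integral_const_mul, integral_add i1 i2, integral_const_mul, integral_const_mul,
          integral_hav hG.sq.integrable, integral_hav hg.sq.integrable]

end Vale.Agent.P112.DEC
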