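import Vale.Agent.P112.H889.Dy2

/-!
# P112, block DEC: the one-variable statements H3a, H3b, H4 (helper889)
-/

open MeasureTheory Set Filter Topology

namespace Vale.Agent.P112.DEC

lemma lev_of_mul {j : ℤ} {c d : ℝ → ℝ} (h : Lev j c) (h' : Lev j d) :
    Lev j (fun y => c y * d y) := fun y y' hy => by
  show c y * d y = c y' * d y'
  rw [h y y' hy, h' y y' hy]

lemma Integrable.mul_bd {c f : ℝ → ℝ} {M : ℝ} (hc : Integrable c) (hf : Bd f M) :
    Integrable (fun y => c y * f y) := by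
  have := hc.bdd_mul (c := M) hf.meas.aestronglyMeasurable (Eventually.of_forall hf.bdd)
  simpa [mul_comm] using this

/-- Pythagoras, with a weight constant on the cells of level `j` -/
lemma pyth {j : ℤ} {c f : ℝ → ℝ} {M : ℝ} (hc : Lev j c) (hci : Integrable c) (hf : Bd f M) :
    ∫ y, c y * hav (j + 1) f y ^ 2 = (∫ y, c y * hav j f y ^ 2) +
      ∫ y, c y * (hav (j + 1) f y - hav j f y) ^ 2 := by
  have ha := hf.hav (j + 1)
  have hb := hf.hav j
  have i1 : Integrable (fun y => c y * hav j f y ^ 2) := Integrable.mul_bd hci hb.sq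
  have i2 : Integrable (fun y => c y * (hav (j + 1) f y - hav j f y) ^ 2) :=
    Integrable.mul_bd hci (ha.sub hb).sq
  have i3 : Integrable (fun y => c y * hav j f y) := Integrable.mul_bd hci hb
  have i4 : Integrable (fun y => c y * hav j f y * hav (j + 1) f y) := Integrable.mul_bd i3 ha
  have i5 : Integrable (fun y => c y * hav j f y * hav j f y) := Integrable.mul_bd i3 hb
  have h1 : ∫ y, c y * hav j f y * hav (j + 1) f y = ∫ y, c y * hav j f y * hav j f y := by
    rw [integral_lev_mul (lev_of_mul hc (lev_hav j f)) i3 ha]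
    exact integral_congr_ae (Eventually.of_forall fun y => by
      show c y * hav j f y * hav j (hav (j + 1) f) y = _
      rw [hav_hav hf])
  have h2 : ∀ y, c y * hav (j + 1) f y ^ 2 = (c y * hav j f y ^ 2 +
      c y * (hav (j + 1) f y - hav j f y) ^ 2) +
      2 * (c y * hav j f y * hav (j + 1) f y - c y * hav j f y * hav j f y) := fun y => by ring
  have i6 : Integrable (fun y => c y * hav j f y ^ 2 +
      c y * (hav (j + 1) f y - hav j f y) ^ 2) := i1.add i2
  have i7 : Integrable (fun y =>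
      2 * (c y * hav j f y * hav (j + 1) f y - c y * hav j f y * hav j f y)) :=
    (i4.sub i5).const_mul 2
  simp_rw [h2]
  rw [integral_add i6 i7, integral_const_mul,
    integral_sub i4 i5, h1, sub_self, mul_zero, add_zero, integral_add i1 i2]

lemma pyth_BM {G : ℝ → ℝ} (hG : BM G) (j : ℤ) :
    ∫ y, (hav (j + 1) G y - hav j G y) ^ 2 =
      (∫ y, hav (j + 1) G y ^ 2) - ∫ y, hav j G y ^ 2 := by
  obtain ⟨M, hM⟩ := hG.bd
  have ha := hM.hav (j + 1)
  have hb := hM.hav j
  have ia := (hG.hav (j + 1)).integrable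
  have ib := (hG.hav j).integrable
  have i1 : Integrable (fun y => hav j G y * hav (j + 1) G y) := Integrable.mul_bd ib ha
  have i2 : Integrable (fun y => hav j G y * hav j G y) := Integrable.mul_bd ib hb
  have i3 : Integrable (fun y => hav (j + 1) G y ^ 2) := (hG.hav (j + 1)).sq.integrable
  have i4 : Integrable (fun y => hav j G y ^ 2) := (hG.hav j).sq.integrable
  have h1 : ∫ y, hav j G y * hav (j + 1) G y = ∫ y, hav j G y * hav j G y := by
    rw [integral_lev_mul (lev_hav j G) ib ha]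
    exact integral_congr_ae (Eventually.of_forall fun y => by
      show hav j G y * hav j (hav (j + 1) G) y = _
      rw [hav_hav hM])
  have h2 : ∀ y, (hav (j + 1) G y - hav j G y) ^ 2 = (hav (j + 1) G y ^ 2 - hav j G y ^ 2) -
      2 * (hav j G y * hav (j + 1) G y - hav j G y * hav j G y) := fun y => by ring
  have i6 : Integrable (fun y => hav (j + 1) G y ^ 2 - hav j G y ^ 2) := i3.sub i4
  have i7 : Integrable (fun y =>
      2 * (hav j G y * hav (j + 1) G y - hav j G y * hav j G y)) := (i1.sub i2).const_mul 2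
  simp_rw [h2]
  rw [integral_sub i6 i7, integral_const_mul,
    integral_sub i1 i2, h1, sub_self, mul_zero, sub_zero, integral_sub i3 i4]

lemma sum_Ico_int (J : ℕ) (f : ℤ → ℝ) :
    ∑ j ∈ Finset.Ico (-(J : ℤ)) J, f j = ∑ i ∈ Finset.range (2 * J), f (-(J : ℤ) + i) := by
  refine Finset.sum_nbij' (fun j => (j + J).toNat) (fun i => -(J : ℤ) + i) ?_ ?_ ?_ ?_ ?_
  · intro a ha
    simp only [Finset.mem_Ico, Finset.mem_range] at *
    omega
  · intro a ha
    simp only [Finset.mem_Ico, Finset.mem_range] at *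
    omega
  · intro a ha
    simp only [Finset.mem_Ico] at *
    omega
  · intro a ha
    simp only [Finset.mem_range] at *
    omega
  · intro a ha
    simp only [Finset.mem_Ico] at ha
    congr 1
    omega

lemma sum_tele {G : ℝ → ℝ} (hG : BM G) (J : ℕ) :
    ∑ j ∈ Finset.Ico (-(J : ℤ)) J, ∫ y, (hav (j + 1) G y - hav j G y) ^ 2 =
      (∫ y, hav J G y ^ 2) - ∫ y, hav (-(J : ℤ)) G y ^ 2 := by
  rw [sum_Ico_int J (fun j => ∫ y, (hav (j + 1) G y - hav j G y) ^ 2)]
  simp_rw [pyth_BM hG]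
  have h := Finset.sum_range_sub (fun i : ℕ => ∫ y, hav (-(J : ℤ) + i) G y ^ 2) (2 * J)
  have e1 : (-(J : ℤ) + ((2 * J : ℕ) : ℤ)) = J := by push_cast; ring
  have e2 : (-(J : ℤ) + ((0 : ℕ) : ℤ)) = -(J : ℤ) := by simp
  rw [e1, e2] at h
  rw [← h]
  refine Finset.sum_congr rfl fun i _ => ?_
  rw [Nat.cast_succ, add_assoc]

lemma sq_hav_le {f : ℝ → ℝ} {M : ℝ} (hf : Bd f M) (j : ℤ) (y : ℝ) :
    hav j f y ^ 2 ≤ hav j (fun s => f s ^ 2) y := by
  have hd := dl_lt_dr j y
  have h1 : (∫ s in (dl j y)..(dr j y), f s) ^ 2 ≤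
      (dr j y - dl j y) * ∫ s in (dl j y)..(dr j y), f s ^ 2 := by
    refine le_trans ?_ (cs hf hd)
    rw [← sq_abs]
    refine pow_le_pow_left₀ (abs_nonneg _) ?_ 2
    exact osc hf ⟨le_rfl, hd.le⟩ ⟨hd.le, le_rfl⟩
  rw [int_eq_hav, int_eq_hav, dr_sub_dl, mul_pow] at h1
  have h2 : 0 < ((2 : ℝ) ^ (-j)) ^ 2 := by positivity
  have h3 : ((2 : ℝ) ^ (-j)) ^ 2 * hav j f y ^ 2 ≤
      ((2 : ℝ) ^ (-j)) ^ 2 * hav j (fun s => f s ^ 2) y := by
    refine h1.trans (le_of_eq ?_)
    ring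
  exact le_of_mul_le_mul_left h3 h2

lemma int_sq_hav_le {G : ℝ → ℝ} (hG : BM G) (j : ℤ) :
    ∫ y, hav j G y ^ 2 ≤ ∫ y, G y ^ 2 := by
  obtain ⟨M, hM⟩ := hG.bd
  rw [← integral_hav hG.sq.integrable j]
  exact integral_mono (hG.hav j).sq.integrable (integrable_hav hG.sq.integrable j)
    fun y => sq_hav_le hM j y

theorem h3a : H3a := by
  intro J G hG
  rw [sum_tele hG J]
  have h1 := int_sq_hav_le hG J
  have h2 : 0 ≤ ∫ y, hav (-(J : ℤ)) G y ^ 2 := integral_nonneg fun y => sq_nonneg _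
  linarith

lemma tendsto_two_neg : Tendsto (fun J : ℕ => (2 : ℝ) ^ (-(J : ℤ))) atTop (𝓝 0) := by
  have h : (fun J : ℕ => (2 : ℝ) ^ (-(J : ℤ))) = fun J : ℕ => ((1 : ℝ) / 2) ^ J := by
    funext J
    rw [zpow_neg, zpow_natCast, one_div, inv_pow]
  rw [h]
  exact tendsto_pow_atTop_nhds_zero_of_lt_one (by norm_num) (by norm_num)

lemma tendsto_fine {G : ℝ → ℝ} (hc : Continuous G) (hG : BM G) :
    Tendsto (fun J : ℕ => ∫ y, hav J G y ^ 2) atTop (𝓝 (∫ y, G y ^ 2)) := by
  obtain ⟨M, hM⟩ := hG.bd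
  obtain ⟨R, hR⟩ := hG.supp
  have hM0 := hM.nonneg
  have h0 : IntegrableOn (fun _ : ℝ => M ^ 2) (Icc (-(R + 1)) (R + 1)) :=
    integrableOn_const (by simp)
  have hb : Integrable ((Icc (-(R + 1)) (R + 1)).indicator fun _ : ℝ => M ^ 2) :=
    h0.integrable_indicator measurableSet_Icc
  refine tendsto_integral_of_dominated_convergence _
    (fun J => (hM.hav J).sq.meas.aestronglyMeasurable) hb
    (fun J => Eventually.of_forall fun y => ?_) (Eventually.of_forall fun y => ?_)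
  · rw [Real.norm_of_nonneg (sq_nonneg _)]
    by_cases hy : y ∈ Icc (-(R + 1)) (R + 1)
    · rw [indicator_of_mem hy]
      have := (hM.hav J).sq.bdd y
      rwa [abs_of_nonneg (sq_nonneg _)] at this
    · rw [indicator_of_notMem hy, hav_zero_of hR]
      · norm_num
      · rw [mem_Icc, ← abs_le, not_le] at hy
        have h1 : (2 : ℝ) ^ (-(J : ℤ)) ≤ 1 := by
          rw [zpow_neg, zpow_natCast]
          exact inv_le_one_of_one_le₀ (one_le_pow₀ (by norm_num))
        linarith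
  · refine Tendsto.pow ?_ 2
    rw [Metric.tendsto_atTop]
    intro ε hε
    obtain ⟨δ, hδ, h1⟩ := Metric.continuousAt_iff.1 (hc.continuousAt (x := y)) (ε / 2)
      (half_pos hε)
    obtain ⟨N, hN⟩ := Metric.tendsto_atTop.1 tendsto_two_neg δ hδ
    refine ⟨N, fun J hJ => ?_⟩
    have h2 := hN J hJ
    rw [Real.dist_eq, sub_zero, abs_of_pos (tzp _)] at h2
    rw [dist_comm, Real.dist_eq]
    refine lt_of_le_of_lt (abs_sub_hav_le hM J y (G y) (ε / 2) fun s hs => ?_) (half_lt_self hε)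
    have h3 := dr_sub_dl (J : ℤ) y
    have h4 := dl_le (J : ℤ) y
    have h5 := le_dr (J : ℤ) y
    have h6 : dist s y < δ := by
      rw [Real.dist_eq]
      refine lt_of_le_of_lt ?_ h2
      rw [abs_le]
      constructor <;> linarith [hs.1, hs.2]
    have h7 := h1 h6
    rw [Real.dist_eq, abs_sub_comm] at h7
    exact h7.le

lemma coarse {G : ℝ → ℝ} (hG : BM G) (J : ℕ) :
    ∫ y, hav (-(J : ℤ)) G y ^ 2 ≤ (2 : ℝ) ^ (-(J : ℤ)) * (∫ y, |G y|) ^ 2 := by
  obtain ⟨M, hM⟩ := hG.bd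
  set L := ∫ y, |G y| with hL
  have h1 : ∀ y, |hav (-(J : ℤ)) G y| ≤ (2 : ℝ) ^ (-(J : ℤ)) * L := by
    intro y
    rw [hav_cell, abs_mul, abs_of_pos (tzp _)]
    refine mul_le_mul_of_nonneg_left ?_ (tzp _).le
    refine (abs_integral_cell_le _ _ _).trans ?_
    exact setIntegral_le_integral hG.abs.integrable (Eventually.of_forall fun y => abs_nonneg _)
  have h2 : ∀ y, |hav (-(J : ℤ)) G y| ≤ hav (-(J : ℤ)) (fun s => |G s|) y := by
    intro y
    rw [hav_cell, hav_cell, abs_mul, abs_of_pos (tzp _)]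
    exact mul_le_mul_of_nonneg_left (abs_integral_cell_le _ _ _) (tzp _).le
  have h3 : ∀ y, hav (-(J : ℤ)) G y ^ 2 ≤
      (2 : ℝ) ^ (-(J : ℤ)) * L * hav (-(J : ℤ)) (fun s => |G s|) y := by
    intro y
    rw [← sq_abs, sq]
    exact mul_le_mul (h1 y) (h2 y) (abs_nonneg _) ((abs_nonneg _).trans (h1 y))
  calc ∫ y, hav (-(J : ℤ)) G y ^ 2
      ≤ ∫ y, (2 : ℝ) ^ (-(J : ℤ)) * L * hav (-(J : ℤ)) (fun s => |G s|) y :=
        integral_mono_of_nonneg (Eventually.of_forall fun y => sq_nonneg _)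
          ((integrable_hav hG.abs.integrable _).const_mul _) (Eventually.of_forall h3)
    _ = (2 : ℝ) ^ (-(J : ℤ)) * L ^ 2 := by
        rw [integral_const_mul, integral_hav hG.abs.integrable, ← hL]
        ring

theorem h3b : H3b := by
  intro G hc hG B hB
  have h1 : Tendsto (fun J : ℕ => ∫ y, hav (-(J : ℤ)) G y ^ 2) atTop (𝓝 0) := by
    have h2 : Tendsto (fun J : ℕ => (2 : ℝ) ^ (-(J : ℤ)) * (∫ y, |G y|) ^ 2) atTop (𝓝 0) := by
      have := tendsto_two_neg.mul_const ((∫ y, |G y|) ^ 2)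
      rwa [zero_mul] at this
    exact squeeze_zero (fun J => integral_nonneg fun y => sq_nonneg _) (fun J => coarse hG J) h2
  have h2 := (tendsto_fine hc hG).sub h1
  rw [sub_zero] at h2
  refine le_of_tendsto h2 (Eventually.of_forall fun J => ?_)
  have h3 := hB J
  rwa [sum_tele hG J] at h3

/-- running maximum of the squares -/
noncomputable def rmax (h : ℤ → ℝ → ℝ) (J : ℕ) : ℕ → ℝ → ℝ
  | 0, _ => 0
  | n + 1, y => max (rmax h J n y) (h (-(J : ℤ) + n) y ^ 2)

lemma rmax_nonneg (h : ℤ → ℝ → ℝ) (J n : ℕ) (y : ℝ) : 0 ≤ rmax h J n y := by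
  cases n with
  | zero => exact le_rfl
  | succ n => exact (sq_nonneg _).trans (le_max_right _ _)

lemma rmax_le {h : ℤ → ℝ → ℝ} {m : ℝ → ℝ} (hm : ∀ j y, |h j y| ≤ m y) (J n : ℕ) (y : ℝ) :
    rmax h J n y ≤ m y ^ 2 := by
  induction n with
  | zero => exact sq_nonneg _
  | succ n ih =>
    refine max_le ih ?_
    rw [← sq_abs]
    exact pow_le_pow_left₀ (abs_nonneg _) (hm _ _) 2

lemma rmax_lev {h : ℤ → ℝ → ℝ} (hl : ∀ j, Lev j (h j)) (J n : ℕ) :
    Lev (-(J : ℤ) + n - 1) (rmax h J n) := by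
  induction n with
  | zero => exact fun _ _ _ => rfl
  | succ n ih =>
    have e1 : (-(J : ℤ) + ((n + 1 : ℕ) : ℤ) - 1) = -(J : ℤ) + n := by push_cast; ring
    rw [e1]
    have h1 : Lev (-(J : ℤ) + n) (rmax h J n) := ih.le (by omega)
    intro y y' hy
    show max _ _ = max _ _
    rw [h1 y y' hy, hl _ y y' hy]

theorem h4 : H4 := by
  intro J b B hb hbB h m hl hm hmm hmi
  have hB : Bd b B := ⟨hb, hbB⟩
  have hB0 := hB.nonneg
  have hint : ∀ n, Integrable (rmax h J n) := fun n =>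
    Integrable.mono' hmi (rmax_lev hl J n).measurable.aestronglyMeasurable
      (Eventually.of_forall fun y => by
        rw [Real.norm_of_nonneg (rmax_nonneg h J n y)]
        exact rmax_le hm J n y)
  have key : ∀ n : ℕ, ∑ i ∈ Finset.range n,
      ∫ y, ((hav (-(J : ℤ) + i + 1) b y - hav (-(J : ℤ) + i) b y) * h (-(J : ℤ) + i) y) ^ 2 ≤
      ∫ y, rmax h J n y * hav (-(J : ℤ) + n) b y ^ 2 := by
    intro n
    induction n with
    | zero =>
      simp only [Finset.range_zero, Finset.sum_empty]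
      exact integral_nonneg fun y => mul_nonneg (rmax_nonneg h J 0 y) (sq_nonneg _)
    | succ n ih =>
      rw [Finset.sum_range_succ]
      set k : ℤ := -(J : ℤ) + n with hk
      have e1 : (-(J : ℤ) + ((n + 1 : ℕ) : ℤ)) = k + 1 := by push_cast; ring
      rw [e1]
      have hlev : Lev k (rmax h J (n + 1)) := by
        have := rmax_lev hl J (n + 1)
        rwa [e1, add_sub_cancel_right] at this
      rw [pyth hlev (hint (n + 1)) hB]
      refine add_le_add (ih.trans ?_) ?_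
      · refine integral_mono (Integrable.mul_bd (hint n) (hB.hav k).sq)
          (Integrable.mul_bd (hint (n + 1)) (hB.hav k).sq) fun y => ?_
        exact mul_le_mul_of_nonneg_right (le_max_left _ _) (sq_nonneg _)
      · refine integral_mono_of_nonneg (Eventually.of_forall fun y => sq_nonneg _)
          (Integrable.mul_bd (hint (n + 1)) ((hB.hav (k + 1)).sub (hB.hav k)).sq)
          (Eventually.of_forall fun y => ?_)
        show ((hav (k + 1) b y - hav k b y) * h k y) ^ 2 ≤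
          rmax h J (n + 1) y * (hav (k + 1) b y - hav k b y) ^ 2
        rw [mul_pow, mul_comm]
        exact mul_le_mul_of_nonneg_right (le_max_right _ _) (sq_nonneg _)
  rw [sum_Ico_int J (fun j => ∫ y, ((hav (j + 1) b y - hav j b y) * h j y) ^ 2)]
  refine (key (2 * J)).trans ?_
  rw [← integral_const_mul]
  refine integral_mono (Integrable.mul_bd (hint _) (hB.hav _).sq) (hmi.const_mul _) fun y => ?_
  show rmax h J (2 * J) y * _ ≤ B ^ 2 * m y ^ 2
  rw [mul_comm]
  refine mul_le_mul ?_ (rmax_le hm J _ y) (rmax_nonneg h J _ y) (sq_nonneg _)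
  have := (hB.hav (-(J : ℤ) + ((2 * J : ℕ) : ℤ))).sq.bdd y
  rwa [abs_of_nonneg (sq_nonneg _)] at this

end Vale.Agent.P112.DEC
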