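import Vale.Agent.P112.H889.TopFin
import Vale.Agent.P112.H540.FD1

/-!
# P112: chapter (G) with a tiny Lipschitz constant, all density levels of a system
-/

open MeasureTheory Set Filter Topology
open scoped ENNReal

set_option linter.dupNamespace false

namespace Vale.Agent.P112.H889

open Vale.Agent.P112.T Vale.Agent.P112.F30 Vale.Agent.P112.H694.BO

variable {M : ℕ}

/-- (R0) for every system, one density level, with the gain. -/
def R0nuP (κ : Ker M) : Prop := ∃ C : ℝ, 0 < C ∧ ∀ (u : ℝ × ℝ → ℝ), Field u →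
  ∀ (n ν : ℕ) (P : ℕ → Set (ℝ × ℝ)) (g : ℝ × ℝ → ℝ), Nice g → (∀ z, |g z| ≤ 1) → PSys n P →
    (∀ j, P j ⊆ Pd u {z | g z ≠ 0} 4 n ν j) →
    ∫ ζ, (κ.FS u g P n ζ) ^ 2 ≤ C * (9 / 10) ^ ν * (volume {z | g z ≠ 0}).toReal

/-- (R0) for every system. -/
def R0P (κ : Ker M) : Prop := ∃ C : ℝ, 0 < C ∧ ∀ (u : ℝ × ℝ → ℝ), Field u →
  ∀ (n : ℕ) (P : ℕ → Set (ℝ × ℝ)) (g : ℝ × ℝ → ℝ), Nice g → (∀ z, |g z| ≤ 1) → PSys n P →
    (∀ j, P j ⊆ {z | g z ≠ 0}) →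
    ∫ ζ, (κ.FS u g P n ζ) ^ 2 ≤ C * (volume {z | g z ≠ 0}).toReal

/-- **The target of chapter (G)**: tiny Lipschitz constant `exp (-L ^ A)`, one density level,
every system. -/
def StGs (κ : Ker M) : Prop := ∀ b B : ℕ, ∃ (A : ℕ) (C : ℝ), 1 ≤ C ∧
  ∀ (u : ℝ × ℝ → ℝ), Field u →
  ∀ (n ν : ℕ) (P : ℕ → Set (ℝ × ℝ)) (f g : ℝ × ℝ → ℝ), Nice f → Nice g →
    (∀ z, |f z| ≤ 1) → (∀ z, |g z| ≤ 1) →
    (∀ z, f z ≠ 0 → 1 / 2 ≤ |f z|) → (∀ z, g z ≠ 0 → 1 / 2 ≤ |g z|) →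
    (∀ z, g z ≠ 0 → z.1 ∈ Ico (0 : ℝ) 1) →
    0 < volume {z | f z ≠ 0} → 0 < volume {z | g z ≠ 0} →
    PSys n P → (∀ j, P j ⊆ Pd u {z | g z ≠ 0} 4 n ν j) →
    ∀ L : ℝ, L = Real.log ((volume {z | g z ≠ 0}).toReal / (volume {z | f z ≠ 0}).toReal) →
    C ≤ L → (∀ x y y', |u (x, y) - u (x, y')| ≤ Real.exp (-L ^ A) * |y - y'|) →
    (ν : ℝ) ≤ b * Real.log L →
      |∫ ζ, f ζ * κ.FS u g P n ζ| * L ^ B ≤
        C * √((volume {z | f z ≠ 0}).toReal) * √((volume {z | g z ≠ 0}).toReal)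

/-- All density levels. -/
def StGt (κ : Ker M) : Prop := ∀ B : ℕ, ∃ (A : ℕ) (C : ℝ), 1 ≤ C ∧
  ∀ (u : ℝ × ℝ → ℝ), Field u →
  ∀ (n : ℕ) (P : ℕ → Set (ℝ × ℝ)) (f g : ℝ × ℝ → ℝ), Nice f → Nice g →
    (∀ z, |f z| ≤ 1) → (∀ z, |g z| ≤ 1) →
    (∀ z, f z ≠ 0 → 1 / 2 ≤ |f z|) → (∀ z, g z ≠ 0 → 1 / 2 ≤ |g z|) →
    (∀ z, g z ≠ 0 → z.1 ∈ Ico (0 : ℝ) 1) →
    0 < volume {z | f z ≠ 0} → 0 < volume {z | g z ≠ 0} →
    PSys n P → (∀ j, P j ⊆ {z | g z ≠ 0}) →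
    ∀ L : ℝ, L = Real.log ((volume {z | g z ≠ 0}).toReal / (volume {z | f z ≠ 0}).toReal) →
    C ≤ L → (∀ x y y', |u (x, y) - u (x, y')| ≤ Real.exp (-L ^ A) * |y - y'|) →
      |∫ ζ, f ζ * κ.FS u g P n ζ| * L ^ B ≤
        C * √((volume {z | f z ≠ 0}).toReal) * √((volume {z | g z ≠ 0}).toReal)

/-- The part of the system `P` on the level `ν`. -/
def PP (u : ℝ × ℝ → ℝ) (E : Set (ℝ × ℝ)) (p n : ℕ) (P : ℕ → Set (ℝ × ℝ)) (ν j : ℕ) :
    Set (ℝ × ℝ) := P j ∩ Pd u E p n ν j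

theorem PP_psys {u : ℝ × ℝ → ℝ} {E : Set (ℝ × ℝ)} {p n : ℕ} {P : ℕ → Set (ℝ × ℝ)}
    (hP : PSys n P) {ν : ℕ} (hd : PSys n (Pd u E p n ν)) : PSys n (PP u E p n P ν) := by
  obtain ⟨r, hr⟩ := hP.bdd
  refine ⟨fun j => (hP.meas j).inter (hd.meas j), ⟨r, fun j z hz => hr j z hz.1⟩, fun j hj => ?_,
    fun z i j k hij hjk hi hk => ⟨hP.conv z i j k hij hjk hi.1 hk.1,
      hd.conv z i j k hij hjk hi.2 hk.2⟩⟩
  unfold PP
  rw [hP.lt j hj, empty_inter]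

theorem tailP (κ : Ker M) {u : ℝ × ℝ → ℝ} (hu : Field u) {f g : ℝ × ℝ → ℝ} (hf : Nice f)
    (hg : Nice g) {n p : ℕ} (hm : ∀ ν j, MeasurableSet (Plow u {z | g z ≠ 0} p n ν j)) (j : ℕ)
    {W : Set (ℝ × ℝ)} (hW : MeasurableSet W) :
    Tendsto (fun ν => ∫ z in W ∩ Plow u {z | g z ≠ 0} p n ν j, g z * κ.T u j f z) atTop
      (𝓝 0) := by
  have hanti : Antitone fun ν => W ∩ Plow u {z | g z ≠ 0} p n ν j := by
    refine antitone_nat_of_succ_le fun ν => ?_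
    rw [Plow_succ u _ p n ν j]
    exact inter_subset_inter_right _ subset_union_right
  have h := hanti.tendsto_setIntegral (μ := volume) (f := fun z => g z * κ.T u j f z)
    (fun ν => hW.inter (hm ν j)) (integrable_gT κ hu j hf hg).integrableOn
  have h0 : ∫ z in ⋂ ν, W ∩ Plow u {z | g z ≠ 0} p n ν j, g z * κ.T u j f z = 0 := by
    apply setIntegral_measure_zero
    refine measure_mono_null ?_ (dens_zero_null (u := u) (E := {z | g z ≠ 0}) (p := p) j)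
    intro z hz
    rw [mem_iInter] at hz
    refine ⟨(hz 0).2.1, ?_⟩
    refine le_antisymm ?_ bot_le
    refine ge_of_tendsto' (ENNReal.tendsto_pow_atTop_nhds_zero_of_lt_one
      (show (1 / 2 : ℝ≥0∞) < 1 by norm_num)) fun ν => (hz ν).2.2.2
  rwa [h0] at h

theorem splitP (κ : Ker M) {u : ℝ × ℝ → ℝ} (hu : Field u) {f g : ℝ × ℝ → ℝ} (hf : Nice f)
    (hg : Nice g) {n p : ℕ} (h1 : ∀ z ∈ {z | g z ≠ 0}, ∀ j < n, dens u {z | g z ≠ 0} p z j ≤ 1)
    (hm : ∀ ν j, MeasurableSet (Plow u {z | g z ≠ 0} p n ν j)) {j : ℕ} (hj : j < n)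
    {W : Set (ℝ × ℝ)} (hW : MeasurableSet W) (hWE : W ⊆ {z | g z ≠ 0}) (ν1 : ℕ) :
    ∫ z in W, g z * κ.T u j f z =
      ∑ ν ∈ Finset.range ν1, (∫ z in W ∩ Pd u {z | g z ≠ 0} p n ν j, g z * κ.T u j f z) +
        ∫ z in W ∩ Plow u {z | g z ≠ 0} p n ν1 j, g z * κ.T u j f z := by
  have hint := integrable_gT κ hu j hf hg
  induction ν1 with
  | zero =>
    rw [Finset.sum_range_zero, zero_add, Plow_zero h1 hj, inter_eq_left.2 hWE]
  | succ ν ih =>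
    rw [ih, Finset.sum_range_succ, Plow_succ u _ p n ν j, inter_union_distrib_left,
      setIntegral_union ((Pd_disj_Plow _ _ _ _ _ _).mono inter_subset_right inter_subset_right)
        (hW.inter (hm _ _)) hint.integrableOn hint.integrableOn]
    ring

/-- The form of a system is controlled by its levels. -/
theorem form_leP (κ : Ker M) {u : ℝ × ℝ → ℝ} (hu : Field u) {f g : ℝ × ℝ → ℝ} (hf : Nice f)
    (hg : Nice g) {n p : ℕ} (h1 : ∀ z ∈ {z | g z ≠ 0}, ∀ j < n, dens u {z | g z ≠ 0} p z j ≤ 1)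
    (hm : ∀ ν j, MeasurableSet (Plow u {z | g z ≠ 0} p n ν j))
    (hd : ∀ ν j, MeasurableSet (Pd u {z | g z ≠ 0} p n ν j)) {P : ℕ → Set (ℝ × ℝ)}
    (hP : PSys n P) (hPE : ∀ j, P j ⊆ {z | g z ≠ 0}) {X : ℝ}
    (hX : ∀ ν1, ∑ ν ∈ Finset.range ν1,
      |∫ z, f z * κ.FS u g (PP u {z | g z ≠ 0} p n P ν) n z| ≤ X) :
    |∫ z, f z * κ.FS u g P n z| ≤ X := by
  have htail : Tendsto (fun ν1 => ∑ j ∈ Finset.range n,
      ∫ z in P j ∩ Plow u {z | g z ≠ 0} p n ν1 j, g z * κ.T u j f z) atTop (𝓝 0) := by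
    have := tendsto_finsetSum (Finset.range n) fun j _ => tailP κ hu hf hg hm j (hP.meas j)
    simpa using this
  have hid : ∀ ν1, ∫ z, f z * κ.FS u g P n z = ∑ ν ∈ Finset.range ν1,
      (∫ z, f z * κ.FS u g (PP u {z | g z ≠ 0} p n P ν) n z) +
      ∑ j ∈ Finset.range n, ∫ z in P j ∩ Plow u {z | g z ≠ 0} p n ν1 j,
        g z * κ.T u j f z := by
    intro ν1
    have hPPm : ∀ ν j, MeasurableSet (PP u {z | g z ≠ 0} p n P ν j) := fun ν j =>
      (hP.meas j).inter (hd ν j)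
    rw [int_f_FS κ hu hf hg hP.meas]
    simp_rw [int_f_FS κ hu hf hg (hPPm _)]
    rw [Finset.sum_comm, ← Finset.sum_add_distrib]
    refine Finset.sum_congr rfl fun j hj => ?_
    exact splitP κ hu hf hg h1 hm (Finset.mem_range.1 hj) (hP.meas j) (hPE j) ν1
  have hle : ∀ ν1, |∫ z, f z * κ.FS u g P n z| ≤ X + |∑ j ∈ Finset.range n,
      ∫ z in P j ∩ Plow u {z | g z ≠ 0} p n ν1 j, g z * κ.T u j f z| := by
    intro ν1
    rw [hid ν1]
    refine (abs_add_le _ _).trans (add_le_add ?_ le_rfl)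
    exact (Finset.abs_sum_le_sum_abs _ _).trans (hX ν1)
  have hlim := (tendsto_const_nhds (x := X)).add htail.abs
  rw [abs_zero, add_zero] at hlim
  exact ge_of_tendsto' hlim hle

theorem sg_pow_le' (B : ℕ) {L : ℝ} (hL : 1 ≤ L) {ν : ℕ} (h : 40 * B * Real.log L ≤ ν) :
    sg ^ ν ≤ 1 / L ^ B := by
  have hL0 : 0 < L := by linarith
  have hlog : 0 ≤ Real.log L := Real.log_nonneg hL
  rw [← Real.exp_log sg_pos, ← Real.exp_nat_mul, one_div, ← Real.exp_log (pow_pos hL0 B),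
    ← Real.exp_neg, Real.log_pow]
  apply Real.exp_le_exp.2
  have := sg_log
  have hν : (0:ℝ) ≤ ν := Nat.cast_nonneg ν
  nlinarith

/-- All levels from one level. -/
theorem stGt_of {κ : Ker M} (h0 : R0nuP κ) (hG : StGs κ) : StGt κ := by
  intro B
  obtain ⟨_, -, hFD1⟩ := H540.stFD1 4
  obtain ⟨C0, hC0, hR⟩ := h0
  obtain ⟨A, CG, hCG, hGG⟩ := hG (40 * B) (B + 1)
  have hsg := sg_pos
  have hsl := sg_lt
  set ρ : ℝ := sg * sg with hρ
  have hρ0 : 0 < ρ := by positivity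
  set K2 : ℝ := (40 * B + 1) * CG + √C0 / (1 - sg) with hK2
  have hCG0 : 0 < CG := by linarith
  have hq0 : 0 ≤ √C0 / (1 - sg) := div_nonneg (Real.sqrt_nonneg _) (by linarith)
  have hK2C : CG ≤ K2 := by
    have : 0 ≤ (40 * B : ℝ) * CG := by positivity
    rw [hK2]; linarith
  refine ⟨A, K2, hCG.trans hK2C, ?_⟩
  intro u hu n P f g hf hg hf1 hg1 hf2 hg2 hgs hfp hgp hP hPE L hL hLC hlip
  have hE : MeasurableSet {z | g z ≠ 0} := measurableSet_support hg.meas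
  set VF : ℝ := (volume {z | f z ≠ 0}).toReal with hVF
  set VE : ℝ := (volume {z | g z ≠ 0}).toReal with hVE
  set X : ℝ := √VF * √VE with hX
  have hX0 : 0 ≤ X := by positivity
  have hd : ∀ ν, PSys n (Pd u {z | g z ≠ 0} 4 n ν) := fun ν =>
    (hFD1 u hu {z | g z ≠ 0} hE (supp_bdd hg) n ν).1
  have hmPl : ∀ ν j, MeasurableSet (Plow u {z | g z ≠ 0} 4 n ν j) := fun ν j =>
    (hFD1 u hu {z | g z ≠ 0} hE (supp_bdd hg) n ν).2.2.1 j
  have hPP : ∀ ν, PSys n (PP u {z | g z ≠ 0} 4 n P ν) := fun ν => PP_psys hP (hd ν)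
  have hPPs : ∀ ν j, PP u {z | g z ≠ 0} 4 n P ν j ⊆ Pd u {z | g z ≠ 0} 4 n ν j :=
    fun ν j => inter_subset_right
  set F : ℕ → ℝ × ℝ → ℝ := fun ν => κ.FS u g (PP u {z | g z ≠ 0} 4 n P ν) n with hF
  have hFN : ∀ ν, Nice (F ν) := fun ν => κ.FS_nice hu hg (hPP ν).meas n
  have hL1 : 1 ≤ L := (hCG.trans hK2C).trans hLC
  have hLp : 0 < L := by linarith
  have hpow : ∀ ν : ℕ, sg ^ ν * sg ^ ν = ρ ^ ν := fun ν => (mul_pow _ _ _).symm
  have tR : ∀ ν, |∫ z, f z * F ν z| ≤ √C0 * X * ρ ^ ν := by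
    intro ν
    refine (bil_f hf (hFN ν) hf1).trans ?_
    have h2 : √(∫ z, F ν z ^ 2) ≤ √C0 * (sg ^ ν * sg ^ ν) * √VE := by
      rw [← sqrt_nine, ← Real.sqrt_mul hC0.le, ← Real.sqrt_mul (by positivity)]
      exact Real.sqrt_le_sqrt (hR u hu n ν _ g hg hg1 (hPP ν) (hPPs ν))
    calc √(volume.real (Function.support f)) * √(∫ z, F ν z ^ 2)
        ≤ √VF * (√C0 * (sg ^ ν * sg ^ ν) * √VE) := by
          refine mul_le_mul ?_ h2 (Real.sqrt_nonneg _) (Real.sqrt_nonneg _)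
          exact le_rfl
      _ = √C0 * X * ρ ^ ν := by rw [hpow, hX]; ring
  have tG : ∀ ν : ℕ, (ν : ℝ) ≤ 40 * B * Real.log L →
      |∫ z, f z * F ν z| ≤ CG * X / L ^ (B + 1) := by
    intro ν hν
    rw [le_div_iff₀ (by positivity)]
    have := hGG u hu n ν (PP u {z | g z ≠ 0} 4 n P ν) f g hf hg hf1 hg1 hf2 hg2 hgs hfp hgp
      (hPP ν) (hPPs ν) L hL (hK2C.trans hLC) hlip (by push_cast; exact hν)
    calc |∫ z, f z * F ν z| * L ^ (B + 1) ≤ CG * √VF * √VE := this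
      _ = CG * X := by rw [hX]; ring
  have hb : |∫ z, f z * κ.FS u g P n z| ≤ K2 * X / L ^ B := by
    apply form_leP κ hu hf hg ((hFD1 u hu {z | g z ≠ 0} hE (supp_bdd hg) n 0).2.1) hmPl
      (fun ν j => (hd ν).meas j) hP hPE
    intro ν1
    have hterm : ∀ ν ∈ Finset.range ν1, |∫ z, f z * F ν z| ≤
        (if (ν : ℝ) ≤ 40 * B * Real.log L then CG * X / L ^ (B + 1) else 0) +
          √C0 * X / L ^ B * sg ^ ν := by
      intro ν _
      by_cases hν : (ν : ℝ) ≤ 40 * B * Real.log L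
      · rw [if_pos hν]
        have : 0 ≤ √C0 * X / L ^ B * sg ^ ν := by positivity
        linarith [tG ν hν]
      · rw [if_neg hν, zero_add]
        refine (tR ν).trans ?_
        have hs := sg_pow_le' B hL1 (not_le.1 hν).le
        calc √C0 * X * ρ ^ ν = √C0 * X * sg ^ ν * sg ^ ν := by rw [← hpow]; ring
          _ ≤ √C0 * X * (1 / L ^ B) * sg ^ ν := by gcongr
          _ = √C0 * X / L ^ B * sg ^ ν := by ring
    refine (Finset.sum_le_sum hterm).trans ?_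
    rw [Finset.sum_add_distrib, ← Finset.mul_sum, ← Finset.sum_filter, Finset.sum_const,
      nsmul_eq_mul]
    have hcard : (((Finset.range ν1).filter fun ν : ℕ =>
        (ν : ℝ) ≤ 40 * B * Real.log L).card : ℝ) ≤ (40 * B + 1) * L := by
      have hsub : ((Finset.range ν1).filter fun ν : ℕ => (ν : ℝ) ≤ 40 * B * Real.log L) ⊆
          Finset.range (⌊40 * B * Real.log L⌋₊ + 1) := by
        intro ν hν
        rw [Finset.mem_filter] at hν
        rw [Finset.mem_range]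
        exact Nat.lt_succ_of_le (Nat.le_floor hν.2)
      have h1 := Finset.card_le_card hsub
      rw [Finset.card_range] at h1
      have hlog : 0 ≤ Real.log L := Real.log_nonneg hL1
      have h2 : ((⌊40 * B * Real.log L⌋₊ : ℕ) : ℝ) ≤ 40 * B * Real.log L :=
        Nat.floor_le (by positivity)
      have h3 : Real.log L ≤ L - 1 := Real.log_le_sub_one_of_pos hLp
      have h4 : 40 * (B : ℝ) * Real.log L ≤ 40 * B * L := by
        have : (0:ℝ) ≤ 40 * B := by positivity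
        nlinarith
      calc (((Finset.range ν1).filter fun ν : ℕ => (ν : ℝ) ≤ 40 * B * Real.log L).card : ℝ)
          ≤ ((⌊40 * B * Real.log L⌋₊ + 1 : ℕ) : ℝ) := by exact_mod_cast h1
        _ = (⌊40 * B * Real.log L⌋₊ : ℝ) + 1 := by push_cast; ring
        _ ≤ (40 * B + 1) * L := by linarith
    calc (((Finset.range ν1).filter fun ν : ℕ => (ν : ℝ) ≤ 40 * B * Real.log L).card : ℝ) *
          (CG * X / L ^ (B + 1)) + √C0 * X / L ^ B * ∑ ν ∈ Finset.range ν1, sg ^ ν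
        ≤ (40 * B + 1) * L * (CG * X / L ^ (B + 1)) + √C0 * X / L ^ B * (1 / (1 - sg)) := by
          gcongr
          exact sum_geo hsg.le hsl ν1
      _ = K2 * X / L ^ B := by
          have e1 : (40 * B + 1) * L * (CG * X / L ^ (B + 1)) = (40 * B + 1) * CG * X / L ^ B := by
            rw [pow_succ]; field_simp
          rw [hK2, e1]
          ring
  calc |∫ z, f z * κ.FS u g P n z| * L ^ B ≤ K2 * X / L ^ B * L ^ B := by gcongr
    _ = K2 * √VF * √VE := by rw [hX]; field_simp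

end Vale.Agent.P112.H889
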