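import Vale.Agent.P112.H889.Short

/-!
# P112: removal of the long scales by rescaling, part 2: the change of variables
-/

open MeasureTheory Set Filter Topology
open scoped ENNReal

set_option linter.dupNamespace false

namespace Vale.Agent.P112.H889

open Vale.Agent.P112.T Vale.Agent.P112.F30 Vale.Agent.P112.H694.BO

variable {M : ℕ}

/-- `(x, y) ↦ ((x + m) / 2 ^ j0, y)`, as a measurable equivalence. -/
noncomputable def ph (j0 m : ℕ) : (ℝ × ℝ) ≃ᵐ (ℝ × ℝ) where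
  toFun z := ((z.1 + m) / 2 ^ j0, z.2)
  invFun z := (2 ^ j0 * z.1 - m, z.2)
  left_inv z := by
    apply Prod.ext
    · show 2 ^ j0 * ((z.1 + m) / 2 ^ j0) - m = z.1
      field_simp
      ring
    · rfl
  right_inv z := by
    apply Prod.ext
    · show (2 ^ j0 * z.1 - m + m) / 2 ^ j0 = z.1
      field_simp
      ring
    · rfl
  measurable_toFun := by
    show Measurable fun z : ℝ × ℝ => ((z.1 + m) / 2 ^ j0, z.2)
    fun_prop
  measurable_invFun := by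
    show Measurable fun z : ℝ × ℝ => (2 ^ j0 * z.1 - (m : ℝ), z.2)
    fun_prop

theorem ph_apply (j0 m : ℕ) (z : ℝ × ℝ) : ph j0 m z = ((z.1 + m) / 2 ^ j0, z.2) := rfl

theorem map_one (j0 m : ℕ) : Measure.map (fun x : ℝ => (x + m) / 2 ^ j0) volume =
    ENNReal.ofReal (2 ^ j0) • (volume : Measure ℝ) := by
  have h1 : (fun x : ℝ => (x + m) / 2 ^ j0) =
      (fun x => x * ((2:ℝ) ^ j0)⁻¹) ∘ (fun x => x + (m:ℝ)) := by
    ext x; simp [div_eq_mul_inv]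
  rw [h1, ← Measure.map_map (by fun_prop) (by fun_prop), map_add_right_eq_self,
    Real.map_volume_mul_right (by positivity)]
  congr 2
  rw [inv_inv, abs_of_pos (by positivity)]

theorem map_ph (j0 m : ℕ) : Measure.map (ph j0 m) volume =
    ENNReal.ofReal (2 ^ j0) • (volume : Measure (ℝ × ℝ)) := by
  have h1 : (⇑(ph j0 m)) = Prod.map (fun x : ℝ => (x + m) / 2 ^ j0) (id : ℝ → ℝ) := rfl
  rw [h1, Measure.volume_eq_prod, ← Measure.map_prod_map _ _ (by fun_prop) measurable_id,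
    map_one, Measure.map_id, Measure.prod_smul_left]

theorem int_ph (j0 m : ℕ) (h : ℝ × ℝ → ℝ) : ∫ z, h (ph j0 m z) = 2 ^ j0 * ∫ z, h z := by
  have h1 := (ph j0 m).measurableEmbedding.integral_map (μ := volume) h
  rw [← h1, map_ph, integral_smul_measure, ENNReal.toReal_ofReal (by positivity), smul_eq_mul]

theorem setInt_ph (j0 m : ℕ) (h : ℝ × ℝ → ℝ) {W : Set (ℝ × ℝ)} (hW : MeasurableSet W) :
    ∫ z in ph j0 m ⁻¹' W, h (ph j0 m z) = 2 ^ j0 * ∫ z in W, h z := by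
  rw [← integral_indicator ((ph j0 m).measurable hW), ← integral_indicator hW, ← int_ph j0 m]
  rfl

theorem vol_ph (j0 m : ℕ) (W : Set (ℝ × ℝ)) :
    volume (ph j0 m ⁻¹' W) = ENNReal.ofReal (2 ^ j0) * volume W := by
  rw [← (ph j0 m).map_apply, map_ph]
  rfl

theorem ph_injective (j0 m : ℕ) : Function.Injective (ph j0 m) := (ph j0 m).injective

/-- The rescaled field. -/
noncomputable def up (j0 m : ℕ) (u : ℝ × ℝ → ℝ) (z : ℝ × ℝ) : ℝ := u (ph j0 m z) / 2 ^ j0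

theorem up_field (j0 m : ℕ) {u : ℝ × ℝ → ℝ} (hu : Field u) : Field (up j0 m u) := by
  obtain ⟨U, hU⟩ := hu.bdd
  refine ⟨(hu.meas.comp (ph j0 m).measurable).div_const _, ⟨U, fun z => ?_⟩⟩
  unfold up
  rw [abs_div, abs_of_pos (by positivity : (0:ℝ) < 2 ^ j0)]
  refine (div_le_self (abs_nonneg _) (one_le_pow₀ (by norm_num))).trans (hU _)

theorem up_lip (j0 m : ℕ) {u : ℝ × ℝ → ℝ} {e : ℝ}
    (h : ∀ x y y', |u (x, y) - u (x, y')| ≤ e * |y - y'|) (x y y' : ℝ) :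
    |up j0 m u (x, y) - up j0 m u (x, y')| ≤ e / 2 ^ j0 * |y - y'| := by
  unfold up
  rw [← sub_div, abs_div, abs_of_pos (by positivity : (0:ℝ) < 2 ^ j0), ph_apply, ph_apply]
  have := h ((x + m) / 2 ^ j0) y y'
  calc |u ((x + m) / 2 ^ j0, y) - u ((x + m) / 2 ^ j0, y')| / 2 ^ j0
      ≤ e * |y - y'| / 2 ^ j0 := by gcongr
    _ = e / 2 ^ j0 * |y - y'| := by ring

theorem nice_ph (j0 m : ℕ) {f : ℝ × ℝ → ℝ} (hf : Nice f) : Nice fun z => f (ph j0 m z) := by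
  obtain ⟨C, hC⟩ := hf.bdd
  obtain ⟨r, hr⟩ := hf.supp
  have h1 : (1:ℝ) ≤ 2 ^ j0 := one_le_pow₀ (by norm_num)
  refine ⟨hf.meas.comp (ph j0 m).measurable, ⟨C, fun z => hC _⟩,
    ⟨2 ^ j0 * |r| + m, fun z hz => hr _ ?_⟩⟩
  have hm : (0:ℝ) ≤ m := Nat.cast_nonneg m
  rw [ph_apply]
  rcases hz with h | h
  · left
    show r ≤ |(z.1 + m) / 2 ^ j0|
    rw [abs_div, abs_of_pos (by positivity : (0:ℝ) < 2 ^ j0), le_div_iff₀ (by positivity)]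
    have h2 := abs_sub_abs_le_abs_sub z.1 (-(m:ℝ))
    rw [sub_neg_eq_add, abs_neg, abs_of_nonneg hm] at h2
    have h3 : r * 2 ^ j0 ≤ 2 ^ j0 * |r| := by
      rw [mul_comm]; gcongr; exact le_abs_self r
    linarith
  · right
    show r ≤ |z.2|
    have h3 : |r| ≤ 2 ^ j0 * |r| := le_mul_of_one_le_left (abs_nonneg r) h1
    linarith [le_abs_self r]

theorem k_ph (κ : Ker M) (j0 m j : ℕ) (v : ℝ) (z ζ : ℝ × ℝ) :
    κ.k (j + j0) v (ph j0 m z) (ph j0 m ζ) = 2 ^ j0 * κ.k j (v / 2 ^ j0) z ζ := by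
  unfold Ker.k
  rw [ph_apply, ph_apply]
  have e1 : (2:ℝ) ^ (j + j0) * ((z.1 + m) / 2 ^ j0 - (ζ.1 + m) / 2 ^ j0) =
      2 ^ j * (z.1 - ζ.1) := by
    rw [pow_add]; field_simp; ring
  have e2 : z.2 - ζ.2 - ((z.1 + m) / 2 ^ j0 - (ζ.1 + m) / 2 ^ j0) * v =
      z.2 - ζ.2 - (z.1 - ζ.1) * (v / 2 ^ j0) := by
    field_simp; ring
  show 2 ^ (j + j0) * κ.K (2 ^ (j + j0) * ((z.1 + m) / 2 ^ j0 - (ζ.1 + m) / 2 ^ j0)) *
    κ.psi (z.2 - ζ.2 - ((z.1 + m) / 2 ^ j0 - (ζ.1 + m) / 2 ^ j0) * v) = _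
  rw [e1, e2, pow_add]
  ring

theorem T_ph (κ : Ker M) (j0 m j : ℕ) (u f : ℝ × ℝ → ℝ) (z : ℝ × ℝ) :
    κ.T (up j0 m u) j (fun w => f (ph j0 m w)) z = κ.T u (j + j0) f (ph j0 m z) := by
  unfold Ker.T
  have h := int_ph j0 m (fun ζ => κ.k (j + j0) (u (ph j0 m z)) (ph j0 m z) ζ * f ζ)
  have h2 : ∀ ζ, κ.k (j + j0) (u (ph j0 m z)) (ph j0 m z) (ph j0 m ζ) * f (ph j0 m ζ) =
      2 ^ j0 * (κ.k j (up j0 m u z) z ζ * f (ph j0 m ζ)) := by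
    intro ζ
    rw [k_ph]
    unfold up
    ring
  simp_rw [h2] at h
  rw [integral_const_mul] at h
  exact mul_left_cancel₀ (by positivity : (2:ℝ) ^ j0 ≠ 0) h

/-! ### Cells -/

/-- The strip over the dyadic interval `[m / 2 ^ j0, (m + 1) / 2 ^ j0)`. -/
def cell (j0 m : ℕ) : Set (ℝ × ℝ) := {z | ⌊2 ^ j0 * z.1⌋ = (m : ℤ)}

/-- The three neighbouring strips. -/
def nbr (j0 m : ℕ) : Set (ℝ × ℝ) := {z | |⌊2 ^ j0 * z.1⌋ - (m : ℤ)| ≤ 1}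

theorem floor_meas (j0 : ℕ) : Measurable fun z : ℝ × ℝ => ⌊2 ^ j0 * z.1⌋ :=
  (measurable_fst.const_mul _).floor

theorem cell_meas (j0 m : ℕ) : MeasurableSet (cell j0 m) :=
  floor_meas j0 (measurableSet_singleton _)

theorem nbr_meas (j0 m : ℕ) : MeasurableSet (nbr j0 m) :=
  (floor_meas j0) (t := {k : ℤ | |k - (m : ℤ)| ≤ 1}) (by measurability)

theorem cell_disj (j0 : ℕ) {m m' : ℕ} (h : m ≠ m') : Disjoint (cell j0 m) (cell j0 m') := by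
  rw [Set.disjoint_left]
  intro z h1 h2
  apply h
  have : (m : ℤ) = m' := h1.symm.trans h2
  exact_mod_cast this

theorem floor_near {j0 j : ℕ} (hj : j0 ≤ j) {x x' : ℝ} (h : |x - x'| ≤ 1 / (8 * 2 ^ j)) :
    |⌊2 ^ j0 * x'⌋ - ⌊2 ^ j0 * x⌋| ≤ 1 := by
  have h2 : (2:ℝ) ^ j0 ≤ 2 ^ j := pow_le_pow_right₀ (by norm_num) hj
  have h3 : |2 ^ j0 * x' - 2 ^ j0 * x| ≤ 1 / 8 := by
    rw [← mul_sub, abs_mul, abs_of_pos (by positivity : (0:ℝ) < 2 ^ j0), abs_sub_comm]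
    calc (2:ℝ) ^ j0 * |x - x'| ≤ 2 ^ j * (1 / (8 * 2 ^ j)) := by gcongr
      _ = 1 / 8 := by field_simp
  obtain ⟨a1, a2⟩ := abs_le.1 h3
  have b1 := Int.floor_le (2 ^ j0 * x)
  have b2 := Int.lt_floor_add_one (2 ^ j0 * x)
  have b3 := Int.floor_le (2 ^ j0 * x')
  have b4 := Int.lt_floor_add_one (2 ^ j0 * x')
  rw [abs_le]
  constructor
  · have : ((⌊2 ^ j0 * x⌋ : ℤ) : ℝ) < ⌊2 ^ j0 * x'⌋ + 2 := by linarith
    have : ⌊2 ^ j0 * x⌋ < ⌊2 ^ j0 * x'⌋ + 2 := by exact_mod_cast this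
    linarith
  · have : ((⌊2 ^ j0 * x'⌋ : ℤ) : ℝ) < ⌊2 ^ j0 * x⌋ + 2 := by linarith
    have : ⌊2 ^ j0 * x'⌋ < ⌊2 ^ j0 * x⌋ + 2 := by exact_mod_cast this
    linarith

/-- `T` only sees the neighbours. -/
theorem T_local (κ : Ker M) {u f : ℝ × ℝ → ℝ} {j0 j : ℕ} (hj : j0 ≤ j) {N : Set (ℝ × ℝ)}
    {z : ℝ × ℝ} (hN : ∀ ζ : ℝ × ℝ, |⌊2 ^ j0 * ζ.1⌋ - ⌊2 ^ j0 * z.1⌋| ≤ 1 → ζ ∈ N) :
    κ.T u j f z = κ.T u j (N.indicator f) z := by
  unfold Ker.T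
  refine integral_congr_ae (Eventually.of_forall fun ζ => ?_)
  by_cases h0 : κ.k j (u z) z ζ = 0
  · simp [h0]
  · have h1 := (κ.k_supp h0).1
    have h2 := hN ζ (floor_near hj h1)
    show κ.k j (u z) z ζ * f ζ = κ.k j (u z) z ζ * N.indicator f ζ
    rw [indicator_of_mem h2]

end Vale.Agent.P112.H889
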