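import Vale.Agent.P112.H889.Lev
import Vale.Agent.P112.H526.R0P

/-!
# P112: removal of the long scales by rescaling, part 1: tools
-/

open MeasureTheory Set Filter Topology
open scoped ENNReal

set_option linter.dupNamespace false

namespace Vale.Agent.P112.H889

open Vale.Agent.P112.T Vale.Agent.P112.F30 Vale.Agent.P112.H694.BO

variable {M : ℕ}

/-! ### (R0) for every system -/

theorem r0nuP (hM : 8 ≤ M) (κ : Ker M) : R0nuP κ := by
  obtain ⟨C, hC, h⟩ := H526.R0.r0νP hM κ
  exact ⟨C, hC, fun u hu n ν P g hg hg1 hP hPd => h u hu n ν g P hg hg1 hP hPd⟩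

theorem r0P (hM : 8 ≤ M) (κ : Ker M) : R0P κ := by
  obtain ⟨C0, hC0, hR⟩ := r0nuP hM κ
  obtain ⟨_, -, hFD1⟩ := H540.stFD1 4
  have hsg := sg_pos
  have hsl := sg_lt
  set ρ : ℝ := sg * sg with hρ
  have hρ0 : 0 < ρ := by positivity
  have hρ1 : ρ < 1 := by nlinarith
  refine ⟨(√C0 / (1 - ρ)) ^ 2, ?_, ?_⟩
  · have : 0 < √C0 / (1 - ρ) := div_pos (Real.sqrt_pos.2 hC0) (by linarith)
    positivity
  intro u hu n P g hg hg1 hP hPE
  have hE : MeasurableSet {z | g z ≠ 0} := measurableSet_support hg.meas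
  set VE : ℝ := (volume {z | g z ≠ 0}).toReal with hVE
  have hd : ∀ ν, PSys n (Pd u {z | g z ≠ 0} 4 n ν) := fun ν =>
    (hFD1 u hu {z | g z ≠ 0} hE (supp_bdd hg) n ν).1
  have hmPl : ∀ ν j, MeasurableSet (Plow u {z | g z ≠ 0} 4 n ν j) := fun ν j =>
    (hFD1 u hu {z | g z ≠ 0} hE (supp_bdd hg) n ν).2.2.1 j
  have hPP : ∀ ν, PSys n (PP u {z | g z ≠ 0} 4 n P ν) := fun ν => PP_psys hP (hd ν)
  set G : ℝ × ℝ → ℝ := κ.FS u g P n with hG
  have hGN : Nice G := κ.FS_nice hu hg hP.meas n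
  set I : ℝ := ∫ z, G z ^ 2 with hI
  have hI0 : 0 ≤ I := integral_nonneg fun _ => sq_nonneg _
  have hmain : |∫ z, G z * κ.FS u g P n z| ≤ √I * (√C0 / (1 - ρ)) * √VE := by
    apply form_leP κ hu hGN hg ((hFD1 u hu {z | g z ≠ 0} hE (supp_bdd hg) n 0).2.1) hmPl
      (fun ν j => (hd ν).meas j) hP hPE
    intro ν1
    have hterm : ∀ ν ∈ Finset.range ν1,
        |∫ z, G z * κ.FS u g (PP u {z | g z ≠ 0} 4 n P ν) n z| ≤
          √I * √C0 * √VE * ρ ^ ν := by
      intro ν _
      have hFN : Nice (κ.FS u g (PP u {z | g z ≠ 0} 4 n P ν) n) :=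
        κ.FS_nice hu hg (hPP ν).meas n
      have h1 := Real.abs_le_sqrt (cs hGN hFN)
      refine h1.trans ?_
      have h2 := hR u hu n ν _ g hg hg1 (hPP ν) (fun j => inter_subset_right)
      rw [Real.sqrt_mul hI0]
      have h3 : √(∫ z, κ.FS u g (PP u {z | g z ≠ 0} 4 n P ν) n z ^ 2) ≤
          √C0 * (sg ^ ν * sg ^ ν) * √VE := by
        rw [← sqrt_nine, ← Real.sqrt_mul hC0.le, ← Real.sqrt_mul (by positivity)]
        exact Real.sqrt_le_sqrt h2
      calc √(∫ z, G z ^ 2) * √(∫ z, κ.FS u g (PP u {z | g z ≠ 0} 4 n P ν) n z ^ 2)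
          ≤ √I * (√C0 * (sg ^ ν * sg ^ ν) * √VE) := by gcongr
        _ = √I * √C0 * √VE * ρ ^ ν := by rw [← mul_pow]; ring
    calc ∑ ν ∈ Finset.range ν1, |∫ z, G z * κ.FS u g (PP u {z | g z ≠ 0} 4 n P ν) n z|
        ≤ ∑ ν ∈ Finset.range ν1, √I * √C0 * √VE * ρ ^ ν := Finset.sum_le_sum hterm
      _ = √I * √C0 * √VE * ∑ ν ∈ Finset.range ν1, ρ ^ ν := by rw [Finset.mul_sum]
      _ ≤ √I * √C0 * √VE * (1 / (1 - ρ)) := by
          gcongr
          exact sum_geo hρ0.le hρ1 ν1
      _ = √I * (√C0 / (1 - ρ)) * √VE := by ring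
  have h1 : ∫ z, G z * κ.FS u g P n z = I := by
    rw [hI]; congr 1; ext z; rw [hG]; ring
  rw [h1, abs_of_nonneg hI0] at hmain
  have h2 : √I ≤ (√C0 / (1 - ρ)) * √VE := by
    by_cases h0 : √I = 0
    · rw [h0]
      have : 0 ≤ √C0 / (1 - ρ) := div_nonneg (Real.sqrt_nonneg _) (by linarith)
      positivity
    · have hpos : 0 < √I := lt_of_le_of_ne (Real.sqrt_nonneg _) (Ne.symm h0)
      have h3 : √I * √I ≤ √I * ((√C0 / (1 - ρ)) * √VE) := by
        rw [Real.mul_self_sqrt hI0]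
        linarith
      exact le_of_mul_le_mul_left h3 hpos
  calc I = √I ^ 2 := (Real.sq_sqrt hI0).symm
    _ ≤ ((√C0 / (1 - ρ)) * √VE) ^ 2 := by gcongr
    _ = (√C0 / (1 - ρ)) ^ 2 * VE := by
        rw [mul_pow, Real.sq_sqrt (by positivity)]

/-! ### A single scale is bounded on `L^∞` -/

theorem slice_vol {v : ℝ → ℝ} {t c : ℝ} (ht : |t| ≤ 1 / 8)
    (hv : ∀ y y', |v y - v y'| ≤ 1 * |y - y'|) :
    volume {y : ℝ | |y - c - t * v y| ≤ 1} ≤ ENNReal.ofReal 4 := by
  refine (Real.volume_le_diam _).trans ?_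
  apply EMetric.diam_le
  intro y hy y' hy'
  rw [edist_dist, Real.dist_eq]
  apply ENNReal.ofReal_le_ofReal
  have h1 : |t * (v y - v y')| ≤ 1 / 8 * |y - y'| := by
    rw [abs_mul]
    have := hv y y'
    rw [one_mul] at this
    gcongr
  have hy1 : |y - c - t * v y| ≤ 1 := hy
  have hy2 : |y' - c - t * v y'| ≤ 1 := hy'
  have h2 : y - y' = (y - c - t * v y) - (y' - c - t * v y') + t * (v y - v y') := by ring
  have h3 : |y - y'| ≤ 1 + 1 + 1 / 8 * |y - y'| := by
    calc |y - y'| = |(y - c - t * v y) - (y' - c - t * v y') + t * (v y - v y')| := by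
          rw [← h2]
      _ ≤ |(y - c - t * v y) - (y' - c - t * v y')| + |t * (v y - v y')| := abs_add_le _ _
      _ ≤ (|y - c - t * v y| + |y' - c - t * v y'|) + |t * (v y - v y')| := by
          gcongr
          exact abs_sub _ _
      _ ≤ 1 + 1 + 1 / 8 * |y - y'| := by linarith
  linarith

theorem S_bdd (κ : Ker M) : ∃ D : ℝ, 0 ≤ D ∧ ∀ (u : ℝ × ℝ → ℝ), Field u →
    (∀ x y y', |u (x, y) - u (x, y')| ≤ 1 * |y - y'|) → ∀ (j : ℕ) (g : ℝ × ℝ → ℝ), Nice g →
    (∀ z, |g z| ≤ 1) → ∀ ζ, |κ.S u j g ζ| ≤ D := by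
  obtain ⟨D, hD, hk⟩ := κ.k_bdd
  refine ⟨D, hD.le, fun u hu hlip j g hg hg1 ζ => ?_⟩
  set W : Set (ℝ × ℝ) := {z | |z.1 - ζ.1| ≤ 1 / (8 * 2 ^ j) ∧
    |z.2 - ζ.2 - (z.1 - ζ.1) * u z| ≤ 1} with hW
  have hWm : MeasurableSet W := by
    have hum := hu.meas
    have e1 : Measurable fun z : ℝ × ℝ => |z.1 - ζ.1| := by fun_prop
    have e2 : Measurable fun z : ℝ × ℝ => |z.2 - ζ.2 - (z.1 - ζ.1) * u z| := by fun_prop
    exact (measurableSet_le e1 measurable_const).inter (measurableSet_le e2 measurable_const)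
  have h2j : (1:ℝ) ≤ 2 ^ j := one_le_pow₀ (by norm_num)
  have hvol : volume W ≤ ENNReal.ofReal (1 / 2 ^ j) := by
    rw [Measure.volume_eq_prod, Measure.prod_apply hWm]
    calc ∫⁻ x, volume (Prod.mk x ⁻¹' W)
        ≤ ∫⁻ x, (Icc (ζ.1 - 1 / (8 * 2 ^ j)) (ζ.1 + 1 / (8 * 2 ^ j))).indicator
            (fun _ => ENNReal.ofReal 4) x := by
          apply lintegral_mono
          intro x
          by_cases hx : x ∈ Icc (ζ.1 - 1 / (8 * 2 ^ j)) (ζ.1 + 1 / (8 * 2 ^ j))
          · rw [indicator_of_mem hx]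
            refine (measure_mono (t := {y : ℝ | |y - ζ.2 - (x - ζ.1) * u (x, y)| ≤ 1})
              ?_).trans ?_
            · intro y hy
              exact hy.2
            · apply slice_vol (v := fun y => u (x, y))
              · obtain ⟨a1, a2⟩ := hx
                have h8 : 1 / (8 * 2 ^ j) ≤ (1:ℝ) / 8 := by
                  apply one_div_le_one_div_of_le (by norm_num)
                  linarith
                exact abs_le.2 ⟨by linarith, by linarith⟩
              · exact hlip x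
          · rw [indicator_of_notMem hx]
            show volume (Prod.mk x ⁻¹' W) ≤ 0
            have : (Prod.mk x ⁻¹' W) = ∅ := by
              ext y
              simp only [mem_preimage, mem_empty_iff_false, iff_false]
              rintro ⟨h1, _⟩
              obtain ⟨a1, a2⟩ := abs_le.1 h1
              exact hx ⟨by linarith, by linarith⟩
            rw [this, measure_empty]
      _ = ENNReal.ofReal 4 * volume (Icc (ζ.1 - 1 / (8 * 2 ^ j)) (ζ.1 + 1 / (8 * 2 ^ j))) := by
          rw [lintegral_indicator measurableSet_Icc, setLIntegral_const]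
      _ = ENNReal.ofReal (1 / 2 ^ j) := by
          rw [Real.volume_Icc, ← ENNReal.ofReal_mul (by norm_num)]
          congr 1
          field_simp
          norm_num
  have hWfin : volume W ≠ ⊤ := ne_top_of_le_ne_top ENNReal.ofReal_ne_top hvol
  unfold Ker.S
  have hbd : |∫ z, κ.k j (u z) z ζ * g z| ≤ ∫ z, W.indicator (fun _ => D * 2 ^ j) z := by
    rw [← Real.norm_eq_abs]
    refine norm_integral_le_of_norm_le ?_ (Eventually.of_forall fun z => ?_)
    · exact (integrable_indicator_iff hWm).2 (integrableOn_const hWfin)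
    · rw [Real.norm_eq_abs, abs_mul]
      by_cases hz : z ∈ W
      · rw [indicator_of_mem hz]
        calc |κ.k j (u z) z ζ| * |g z| ≤ D * 2 ^ j * 1 := by
              gcongr
              · exact hk _ _ _ _
              · exact hg1 z
          _ = D * 2 ^ j := mul_one _
      · rw [indicator_of_notMem hz]
        have : κ.k j (u z) z ζ = 0 := by
          by_contra hne
          exact hz (κ.k_supp hne)
        rw [this, abs_zero, zero_mul]
  refine hbd.trans ?_
  rw [integral_indicator hWm, setIntegral_const, smul_eq_mul]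
  have h3 : volume.real W ≤ 1 / 2 ^ j := ENNReal.toReal_le_of_le_ofReal (by positivity) hvol
  calc volume.real W * (D * 2 ^ j) ≤ 1 / 2 ^ j * (D * 2 ^ j) := by gcongr
    _ = D := by field_simp

/-- One scale against `f`. -/
theorem one_scale (κ : Ker M) : ∃ D : ℝ, 0 ≤ D ∧ ∀ (u : ℝ × ℝ → ℝ), Field u →
    (∀ x y y', |u (x, y) - u (x, y')| ≤ 1 * |y - y'|) → ∀ (j : ℕ) (f g : ℝ × ℝ → ℝ), Nice f →
    Nice g → (∀ z, |f z| ≤ 1) → (∀ z, |g z| ≤ 1) → ∀ W : Set (ℝ × ℝ), MeasurableSet W →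
    |∫ z in W, g z * κ.T u j f z| ≤ D * volume.real (Function.support f) := by
  obtain ⟨D, hD, h⟩ := S_bdd κ
  refine ⟨D, hD, fun u hu hlip j f g hf hg hf1 hg1 W hW => ?_⟩
  have hgW := hg.indicator hW
  have hgW1 : ∀ z, |W.indicator g z| ≤ 1 := by
    intro z
    by_cases hz : z ∈ W
    · rw [indicator_of_mem hz]; exact hg1 z
    · rw [indicator_of_notMem hz]; simp
  rw [← integral_indicator_mul hW, ← κ.integral_S_mul' hu j hgW hf]
  have hm := measurableSet_support hf.meas
  have hbd : |∫ ζ, κ.S u j (W.indicator g) ζ * f ζ| ≤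
      ∫ ζ, (Function.support f).indicator (fun _ => D) ζ := by
    rw [← Real.norm_eq_abs]
    refine norm_integral_le_of_norm_le ?_ (Eventually.of_forall fun z => ?_)
    · exact (integrable_indicator_iff hm).2 (integrableOn_const (supp_fin hf).ne)
    · rw [Real.norm_eq_abs, abs_mul]
      by_cases hz : z ∈ Function.support f
      · rw [indicator_of_mem hz]
        calc |κ.S u j (W.indicator g) z| * |f z| ≤ D * 1 := by
              gcongr
              · exact h u hu hlip j _ hgW hgW1 z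
              · exact hf1 z
          _ = D := mul_one _
      · rw [indicator_of_notMem hz]
        have : f z = 0 := by simpa using hz
        rw [this, abs_zero, mul_zero]
  refine hbd.trans ?_
  rw [integral_indicator hm, setIntegral_const, smul_eq_mul, mul_comm]

end Vale.Agent.P112.H889
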