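import Vale.Agent.P112.H889.Resc
import Vale.Agent.P112.Top.Defs

/-!
# P112: removal of the long scales by rescaling, part 3: the theorem
-/

open MeasureTheory Set Filter Topology
open scoped ENNReal

set_option linter.dupNamespace false

namespace Vale.Agent.P112.H889

open Vale.Agent.P112.T Vale.Agent.P112.F30 Vale.Agent.P112.H694.BO

variable {M : ℕ}

theorem sum_ext_range {a : ℕ → ℝ} {n : ℕ} (h : ∀ j, n ≤ j → a j = 0) (j0 : ℕ) :
    ∑ j ∈ Finset.range n, a j = ∑ j ∈ Finset.range j0, a j +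
      ∑ i ∈ Finset.range (n - j0), a (j0 + i) := by
  rw [← Finset.sum_range_add]
  rcases le_total j0 n with h1 | h1
  · rw [Nat.add_sub_cancel' h1]
  · rw [Nat.sub_eq_zero_of_le h1, add_zero]
    apply Finset.sum_subset (Finset.range_mono h1)
    intro j _ hj
    exact h j (by simpa using hj)

/-- splitting an integral over cells -/
theorem int_cells {h : ℝ × ℝ → ℝ} (hh : Integrable h) (j0 : ℕ) (𝒲 : Finset ℕ)
    {Q : Set (ℝ × ℝ)} (hQ : MeasurableSet Q) :
    ∫ z in Q ∩ ⋃ m ∈ 𝒲, cell j0 m, h z = ∑ m ∈ 𝒲, ∫ z in Q ∩ cell j0 m, h z := by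
  rw [inter_iUnion₂, integral_biUnion_finset]
  · exact fun m _ => hQ.inter (cell_meas j0 m)
  · intro m _ m' _ hne
    exact (cell_disj j0 hne).mono inter_subset_right inter_subset_right
  · exact fun m _ => hh.integrableOn

theorem mem_nbr_of {j0 m : ℕ} {z ζ : ℝ × ℝ} (hz : z ∈ cell j0 m)
    (h : |⌊2 ^ j0 * ζ.1⌋ - ⌊2 ^ j0 * z.1⌋| ≤ 1) : ζ ∈ nbr j0 m := by
  have h1 : ⌊2 ^ j0 * z.1⌋ = (m : ℤ) := hz
  rw [h1] at h
  exact h

/-- The form of a set of cells. -/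
noncomputable def Bf (κ : Ker M) (u : ℝ × ℝ → ℝ) (n j0 : ℕ) (P : ℕ → Set (ℝ × ℝ))
    (f g : ℝ × ℝ → ℝ) (𝒲 : Finset ℕ) : ℝ :=
  ∑ i ∈ Finset.range (n - j0), ∑ m ∈ 𝒲, ∫ z in P (j0 + i) ∩ cell j0 m, g z * κ.T u (j0 + i) f z

theorem Bf_single (κ : Ker M) (u : ℝ × ℝ → ℝ) (n j0 : ℕ) (P : ℕ → Set (ℝ × ℝ))
    (f g : ℝ × ℝ → ℝ) (𝒲 : Finset ℕ) :
    Bf κ u n j0 P f g 𝒲 = ∑ m ∈ 𝒲, Bf κ u n j0 P f g {m} := by
  unfold Bf
  rw [Finset.sum_comm]
  refine Finset.sum_congr rfl fun m _ => ?_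
  refine Finset.sum_congr rfl fun i _ => ?_
  rw [Finset.sum_singleton]

theorem W_meas (j0 : ℕ) (𝒲 : Finset ℕ) : MeasurableSet (⋃ m ∈ 𝒲, cell j0 m) :=
  Finset.measurableSet_biUnion _ fun m _ => cell_meas j0 m

theorem N_meas (j0 : ℕ) (𝒲 : Finset ℕ) : MeasurableSet (⋃ m ∈ 𝒲, nbr j0 m) :=
  Finset.measurableSet_biUnion _ fun m _ => nbr_meas j0 m

theorem ind_le_one {g : ℝ × ℝ → ℝ} (h : ∀ z, |g z| ≤ 1) (W : Set (ℝ × ℝ)) (z : ℝ × ℝ) :
    |W.indicator g z| ≤ 1 := by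
  by_cases hz : z ∈ W
  · rw [indicator_of_mem hz]; exact h z
  · rw [indicator_of_notMem hz]; simp

/-- (R0) for a set of cells. -/
theorem Bf_le {κ : Ker M} {C0 : ℝ} (hC0 : 0 < C0) (hR : ∀ (u : ℝ × ℝ → ℝ), Field u →
    ∀ (n : ℕ) (P : ℕ → Set (ℝ × ℝ)) (g : ℝ × ℝ → ℝ), Nice g → (∀ z, |g z| ≤ 1) → PSys n P →
    (∀ j, P j ⊆ {z | g z ≠ 0}) →
    ∫ ζ, (κ.FS u g P n ζ) ^ 2 ≤ C0 * (volume {z | g z ≠ 0}).toReal)
    {u : ℝ × ℝ → ℝ} (hu : Field u) {n : ℕ} (j0 : ℕ) {P : ℕ → Set (ℝ × ℝ)} {f g : ℝ × ℝ → ℝ}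
    (hf : Nice f) (hg : Nice g) (hf1 : ∀ z, |f z| ≤ 1) (hg1 : ∀ z, |g z| ≤ 1)
    (hP : PSys n P) (hPE : ∀ j, P j ⊆ {z | g z ≠ 0}) (𝒲 : Finset ℕ) :
    |Bf κ u n j0 P f g 𝒲| ≤
      √(volume.real (Function.support ((⋃ m ∈ 𝒲, nbr j0 m).indicator f))) *
      √(C0 * volume.real (Function.support ((⋃ m ∈ 𝒲, cell j0 m).indicator g))) := by
  set W : Set (ℝ × ℝ) := ⋃ m ∈ 𝒲, cell j0 m with hW
  set N : Set (ℝ × ℝ) := ⋃ m ∈ 𝒲, nbr j0 m with hN
  have hWm : MeasurableSet W := W_meas j0 𝒲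
  have hNm : MeasurableSet N := N_meas j0 𝒲
  have hg' := hg.indicator hWm
  have hf' := hf.indicator hNm
  set P1 : ℕ → Set (ℝ × ℝ) := fun j => if j0 ≤ j then P j ∩ W else ∅ with hP1
  have hP1S : PSys n P1 := by
    obtain ⟨r, hr⟩ := hP.bdd
    refine ⟨fun j => ?_, ⟨r, fun j z hz => ?_⟩, fun j hj => ?_, fun z i j k hij hjk hi hk => ?_⟩
    · rw [hP1]
      by_cases h : j0 ≤ j
      · simp only [h, if_true]; exact (hP.meas j).inter hWm
      · simp only [h, if_false]; exact MeasurableSet.empty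
    · rw [hP1] at hz
      by_cases h : j0 ≤ j
      · simp only [h, if_true] at hz; exact hr j z hz.1
      · simp only [h, if_false] at hz; exact absurd hz (notMem_empty _)
    · rw [hP1]
      by_cases h : j0 ≤ j
      · simp only [h, if_true]; rw [hP.lt j hj, empty_inter]
      · simp only [h, if_false]
    · rw [hP1] at hi hk ⊢
      have h1 : j0 ≤ i := by
        by_contra h
        simp only [h, if_false] at hi
        exact absurd hi (notMem_empty _)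
      simp only [h1, if_true] at hi
      simp only [h1.trans (hij.trans hjk), if_true] at hk
      simp only [h1.trans hij, if_true]
      exact ⟨hP.conv z i j k hij hjk hi.1 hk.1, hi.2⟩
  have hP1E : ∀ j, P1 j ⊆ {z | W.indicator g z ≠ 0} := by
    intro j z hz
    rw [hP1] at hz
    by_cases h : j0 ≤ j
    · simp only [h, if_true] at hz
      show W.indicator g z ≠ 0
      rw [indicator_of_mem hz.2]
      exact hPE j hz.1
    · simp only [h, if_false] at hz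
      exact absurd hz (notMem_empty _)
  have hid : ∫ z, N.indicator f z * κ.FS u (W.indicator g) P1 n z = Bf κ u n j0 P f g 𝒲 := by
    rw [int_f_FS κ hu hf' hg' hP1S.meas, sum_ext_range (n := n) (j0 := j0)]
    · have hz : ∑ j ∈ Finset.range j0, (∫ z in P1 j, W.indicator g z *
          κ.T u j (N.indicator f) z) = 0 := by
        apply Finset.sum_eq_zero
        intro j hj
        have : ¬ j0 ≤ j := not_le.2 (Finset.mem_range.1 hj)
        rw [hP1]
        simp only [this, if_false]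
        simp
      rw [hz, zero_add]
      unfold Bf
      refine Finset.sum_congr rfl fun i _ => ?_
      rw [← int_cells (integrable_gT κ hu (j0 + i) hf hg) j0 𝒲 (hP.meas _), ← hW]
      have h1 : P1 (j0 + i) = P (j0 + i) ∩ W := by rw [hP1]; simp
      rw [h1]
      refine setIntegral_congr_fun ((hP.meas _).inter hWm) fun z hz => ?_
      show W.indicator g z * κ.T u (j0 + i) (N.indicator f) z = g z * κ.T u (j0 + i) f z
      rw [indicator_of_mem hz.2]
      congr 1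
      symm
      apply T_local κ (Nat.le_add_right j0 i)
      intro ζ hζ
      have hzW := hz.2
      rw [hW, mem_iUnion₂] at hzW
      obtain ⟨m, hm, hzm⟩ := hzW
      rw [hN, mem_iUnion₂]
      exact ⟨m, hm, mem_nbr_of hzm hζ⟩
    · intro j hj
      rw [hP1S.lt j hj]
      simp
  rw [← hid]
  have hFN := κ.FS_nice hu hg' hP1S.meas n
  refine (bil_f hf' hFN (ind_le_one hf1 N)).trans ?_
  gcongr
  exact hR u hu n P1 _ hg' (ind_le_one hg1 W) hP1S hP1E

/-- The identity for one cell. -/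
theorem Bf_resc (κ : Ker M) {u : ℝ × ℝ → ℝ} (hu : Field u) {n : ℕ} (j0 m : ℕ)
    {P : ℕ → Set (ℝ × ℝ)} {f g : ℝ × ℝ → ℝ} (hf : Nice f) (hg : Nice g) (hP : PSys n P) :
    ∫ z, (nbr j0 m).indicator f (ph j0 m z) * κ.FS (up j0 m u)
      (fun w => (cell j0 m).indicator g (ph j0 m w))
      (fun i => ph j0 m ⁻¹' (P (j0 + i) ∩ cell j0 m)) (n - j0) z =
      2 ^ j0 * Bf κ u n j0 P f g {m} := by
  have hg' := nice_ph j0 m (hg.indicator (cell_meas j0 m))
  have hf' := nice_ph j0 m (hf.indicator (nbr_meas j0 m))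
  have hm : ∀ i, MeasurableSet (ph j0 m ⁻¹' (P (j0 + i) ∩ cell j0 m)) := fun i =>
    (ph j0 m).measurable ((hP.meas _).inter (cell_meas j0 m))
  rw [int_f_FS κ (up_field j0 m hu) hf' hg' hm]
  unfold Bf
  rw [Finset.mul_sum]
  refine Finset.sum_congr rfl fun i _ => ?_
  rw [Finset.sum_singleton, ← setInt_ph j0 m _ ((hP.meas _).inter (cell_meas j0 m))]
  refine setIntegral_congr_fun (hm i) fun z hz => ?_
  have hz2 : ph j0 m z ∈ cell j0 m := hz.2
  show (cell j0 m).indicator g (ph j0 m z) * κ.T (up j0 m u) i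
    (fun w => (nbr j0 m).indicator f (ph j0 m w)) z =
    g (ph j0 m z) * κ.T u (j0 + i) f (ph j0 m z)
  rw [T_ph, indicator_of_mem hz2, add_comm i j0]
  congr 1
  symm
  exact T_local κ (Nat.le_add_right j0 i) fun ζ hζ => mem_nbr_of hz2 hζ

/-! ### Masses of the cells -/

theorem real_union_le {h : ℝ × ℝ → ℝ} (hh : Nice h) (j0 : ℕ) (𝒲 : Finset ℕ) (d : ℤ) :
    ∑ m ∈ 𝒲, volume.real (Function.support h ∩ {z | ⌊2 ^ j0 * z.1⌋ = (m : ℤ) + d}) ≤
      volume.real (Function.support h) := by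
  have hs := measurableSet_support hh.meas
  have hm : ∀ m : ℕ, MeasurableSet (Function.support h ∩
      {z : ℝ × ℝ | ⌊2 ^ j0 * z.1⌋ = (m : ℤ) + d}) := fun m =>
    hs.inter (floor_meas j0 (measurableSet_singleton _))
  have hdis : (𝒲 : Set ℕ).PairwiseDisjoint fun m : ℕ =>
      Function.support h ∩ {z : ℝ × ℝ | ⌊2 ^ j0 * z.1⌋ = (m : ℤ) + d} := by
    intro m _ m' _ hne
    rw [Function.onFun, Set.disjoint_left]
    rintro z ⟨_, h1⟩ ⟨_, h2⟩
    apply hne
    have h3 : (m : ℤ) + d = m' + d := h1.symm.trans h2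
    have : (m : ℤ) = m' := by linarith
    exact_mod_cast this
  rw [← measureReal_biUnion_finset hdis (fun m _ => hm m) (fun m _ =>
    ne_top_of_le_ne_top (supp_fin hh).ne (measure_mono inter_subset_left))]
  exact measureReal_mono (iUnion₂_subset fun m _ => inter_subset_left) (supp_fin hh).ne

theorem supp_ind (h : ℝ × ℝ → ℝ) (W : Set (ℝ × ℝ)) :
    Function.support (W.indicator h) = Function.support h ∩ W := by
  rw [Set.support_indicator, inter_comm]

theorem sum_cell_le {g : ℝ × ℝ → ℝ} (hg : Nice g) (j0 : ℕ) (𝒲 : Finset ℕ) :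
    ∑ m ∈ 𝒲, volume.real (Function.support ((cell j0 m).indicator g)) ≤
      volume.real (Function.support g) := by
  have := real_union_le hg j0 𝒲 0
  simp only [add_zero] at this
  simp_rw [supp_ind]
  exact this

theorem sum_nbr_le {f : ℝ × ℝ → ℝ} (hf : Nice f) (j0 : ℕ) (𝒲 : Finset ℕ) :
    ∑ m ∈ 𝒲, volume.real (Function.support ((nbr j0 m).indicator f)) ≤
      3 * volume.real (Function.support f) := by
  have h0 := real_union_le hf j0 𝒲 0
  have h1 := real_union_le hf j0 𝒲 1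
  have h2 := real_union_le hf j0 𝒲 (-1)
  have hfin : ∀ s : Set (ℝ × ℝ), volume (Function.support f ∩ s) ≠ ⊤ := fun s =>
    ne_top_of_le_ne_top (supp_fin hf).ne (measure_mono inter_subset_left)
  have hle : ∀ m ∈ 𝒲, volume.real (Function.support ((nbr j0 m).indicator f)) ≤
      volume.real (Function.support f ∩ {z | ⌊2 ^ j0 * z.1⌋ = (m : ℤ) + 0}) +
      volume.real (Function.support f ∩ {z | ⌊2 ^ j0 * z.1⌋ = (m : ℤ) + 1}) +
      volume.real (Function.support f ∩ {z | ⌊2 ^ j0 * z.1⌋ = (m : ℤ) + -1}) := by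
    intro m _
    rw [supp_ind]
    have hsub : Function.support f ∩ nbr j0 m ⊆
        (Function.support f ∩ {z | ⌊2 ^ j0 * z.1⌋ = (m : ℤ) + 0} ∪
        Function.support f ∩ {z | ⌊2 ^ j0 * z.1⌋ = (m : ℤ) + 1}) ∪
        Function.support f ∩ {z | ⌊2 ^ j0 * z.1⌋ = (m : ℤ) + -1} := by
      rintro z ⟨hz1, hz2⟩
      have hz3 : |⌊2 ^ j0 * z.1⌋ - (m : ℤ)| ≤ 1 := hz2
      rw [abs_le] at hz3
      have h4 : ⌊2 ^ j0 * z.1⌋ = (m : ℤ) + 0 ∨ ⌊2 ^ j0 * z.1⌋ = (m : ℤ) + 1 ∨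
          ⌊2 ^ j0 * z.1⌋ = (m : ℤ) + -1 := by omega
      rcases h4 with h4 | h4 | h4
      · exact Or.inl (Or.inl ⟨hz1, h4⟩)
      · exact Or.inl (Or.inr ⟨hz1, h4⟩)
      · exact Or.inr ⟨hz1, h4⟩
    calc volume.real (Function.support f ∩ nbr j0 m)
        ≤ volume.real ((Function.support f ∩ {z | ⌊2 ^ j0 * z.1⌋ = (m : ℤ) + 0} ∪
        Function.support f ∩ {z | ⌊2 ^ j0 * z.1⌋ = (m : ℤ) + 1}) ∪
        Function.support f ∩ {z | ⌊2 ^ j0 * z.1⌋ = (m : ℤ) + -1}) := by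
          refine measureReal_mono hsub ?_
          rw [← inter_union_distrib_left, ← inter_union_distrib_left]
          exact hfin _
      _ ≤ volume.real (Function.support f ∩ {z | ⌊2 ^ j0 * z.1⌋ = (m : ℤ) + 0} ∪
        Function.support f ∩ {z | ⌊2 ^ j0 * z.1⌋ = (m : ℤ) + 1}) +
        volume.real (Function.support f ∩ {z | ⌊2 ^ j0 * z.1⌋ = (m : ℤ) + -1}) :=
          measureReal_union_le _ _
      _ ≤ _ := by
          gcongr
          exact measureReal_union_le _ _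
  refine (Finset.sum_le_sum hle).trans ?_
  rw [Finset.sum_add_distrib, Finset.sum_add_distrib]
  linarith

/-! ### Numerical lemmas -/

theorem pow_exp_le (k : ℕ) {L : ℝ} (hL : 0 ≤ L) :
    L ^ k * Real.exp (-(L / 4)) ≤ 4 ^ k * (k.factorial : ℝ) := by
  have h1 := Real.pow_div_factorial_le_exp (L / 4) (by positivity) k
  have hf : (0:ℝ) < k.factorial := by exact_mod_cast k.factorial_pos
  rw [div_le_iff₀ hf] at h1
  have h2 : L ^ k = 4 ^ k * (L / 4) ^ k := by rw [← mul_pow]; congr 1; ring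
  rw [h2, Real.exp_neg, ← div_eq_mul_inv, div_le_iff₀ (Real.exp_pos _)]
  calc 4 ^ k * (L / 4) ^ k ≤ 4 ^ k * (Real.exp (L / 4) * k.factorial) := by gcongr
    _ = 4 ^ k * (k.factorial : ℝ) * Real.exp (L / 4) := by ring

theorem exp_half_le {L : ℝ} (hL : 0 ≤ L) : Real.exp (-(L / 2)) ≤ Real.exp (-(L / 4)) :=
  Real.exp_le_exp.2 (by linarith)

/-- Choice of the number of long scales. -/
theorem exists_j0 (A : ℕ) {L : ℝ} (hL : 1 ≤ L) : ∃ j0 : ℕ,
    1 / 2 ^ j0 ≤ Real.exp (-(2 * L) ^ A) ∧ (j0 : ℝ) ≤ 3 * (2 * L) ^ A := by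
  have h2 : (1:ℝ) / 2 ≤ Real.log 2 := by
    have := Real.log_two_gt_d9; linarith
  have hp : 1 ≤ (2 * L) ^ A := one_le_pow₀ (by linarith)
  refine ⟨⌈(2 * L) ^ A / Real.log 2⌉₊, ?_, ?_⟩
  · have h3 := Nat.le_ceil ((2 * L) ^ A / Real.log 2)
    rw [div_le_iff₀ (by linarith)] at h3
    set j0 := ⌈(2 * L) ^ A / Real.log 2⌉₊
    have h4 : (1:ℝ) / 2 ^ j0 = Real.exp (-(j0 * Real.log 2)) := by
      rw [Real.exp_neg, Real.exp_nat_mul, Real.exp_log (by norm_num), one_div]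
    rw [h4]
    exact Real.exp_le_exp.2 (by linarith)
  · have h3 := (Nat.ceil_lt_add_one (show 0 ≤ (2 * L) ^ A / Real.log 2 by positivity)).le
    have h4 : (2 * L) ^ A / Real.log 2 ≤ 2 * (2 * L) ^ A := by
      rw [div_le_iff₀ (by linarith)]
      nlinarith
    linarith

/-- The bound for one good cell. -/
theorem good_cell {κ : Ker M} {A B : ℕ} {CG : ℝ} (hCG : 1 ≤ CG)
    (hG : ∀ (u : ℝ × ℝ → ℝ), Field u →
      ∀ (n : ℕ) (P : ℕ → Set (ℝ × ℝ)) (f g : ℝ × ℝ → ℝ), Nice f → Nice g →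
      (∀ z, |f z| ≤ 1) → (∀ z, |g z| ≤ 1) →
      (∀ z, f z ≠ 0 → 1 / 2 ≤ |f z|) → (∀ z, g z ≠ 0 → 1 / 2 ≤ |g z|) →
      (∀ z, g z ≠ 0 → z.1 ∈ Ico (0 : ℝ) 1) →
      0 < volume {z | f z ≠ 0} → 0 < volume {z | g z ≠ 0} →
      PSys n P → (∀ j, P j ⊆ {z | g z ≠ 0}) →
      ∀ L : ℝ, L = Real.log ((volume {z | g z ≠ 0}).toReal / (volume {z | f z ≠ 0}).toReal) →
      CG ≤ L → (∀ x y y', |u (x, y) - u (x, y')| ≤ Real.exp (-L ^ A) * |y - y'|) →
        |∫ ζ, f ζ * κ.FS u g P n ζ| * L ^ B ≤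
          CG * √((volume {z | f z ≠ 0}).toReal) * √((volume {z | g z ≠ 0}).toReal))
    {u : ℝ × ℝ → ℝ} (hu : Field u) (hlip : ∀ x y y', |u (x, y) - u (x, y')| ≤ 1 * |y - y'|)
    {n : ℕ} (j0 m : ℕ) {P : ℕ → Set (ℝ × ℝ)} {f g : ℝ × ℝ → ℝ}
    (hf : Nice f) (hg : Nice g) (hf1 : ∀ z, |f z| ≤ 1) (hg1 : ∀ z, |g z| ≤ 1)
    (hf2 : ∀ z, f z ≠ 0 → 1 / 2 ≤ |f z|) (hg2 : ∀ z, g z ≠ 0 → 1 / 2 ≤ |g z|)
    (hP : PSys n P) (hPE : ∀ j, P j ⊆ {z | g z ≠ 0}) {L : ℝ} (hL : 2 * CG ≤ L)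
    (hj0 : 1 / 2 ^ j0 ≤ Real.exp (-(2 * L) ^ A))
    (h1 : volume.real (Function.support ((nbr j0 m).indicator f)) <
      Real.exp (-(L / 2)) * volume.real (Function.support ((cell j0 m).indicator g)))
    (h2 : Real.exp (-(2 * L)) * volume.real (Function.support ((cell j0 m).indicator g)) ≤
      volume.real (Function.support ((nbr j0 m).indicator f))) :
    |Bf κ u n j0 P f g {m}| ≤ CG * 2 ^ B / L ^ B *
      (√(volume.real (Function.support ((nbr j0 m).indicator f))) *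
        √(volume.real (Function.support ((cell j0 m).indicator g)))) := by
  have hcm := cell_meas j0 m
  have hnm := nbr_meas j0 m
  have hgI := hg.indicator hcm
  have hfI := hf.indicator hnm
  set fm := (nbr j0 m).indicator f with hfm
  set gm := (cell j0 m).indicator g with hgm
  set vf := volume.real (Function.support fm) with hvf
  set vg := volume.real (Function.support gm) with hvg
  have hLp : 0 < L := by linarith
  have hvf0 : 0 ≤ vf := measureReal_nonneg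
  have hvg0 : 0 < vg := by
    by_contra hc
    have : vg ≤ 0 := not_lt.1 hc
    have h3 : Real.exp (-(L / 2)) * vg ≤ 0 :=
      mul_nonpos_of_nonneg_of_nonpos (Real.exp_pos _).le this
    linarith
  have hvf1 : 0 < vf := lt_of_lt_of_le (mul_pos (Real.exp_pos _) hvg0) h2
  -- the logarithm
  set Lm := Real.log (vg / vf) with hLm
  have hq : 0 < vg / vf := div_pos hvg0 hvf1
  have hLm1 : L / 2 ≤ Lm := by
    rw [hLm, Real.le_log_iff_exp_le hq, le_div_iff₀ hvf1]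
    calc Real.exp (L / 2) * vf ≤ Real.exp (L / 2) * (Real.exp (-(L / 2)) * vg) := by
          gcongr
      _ = vg := by rw [← mul_assoc, ← Real.exp_add]; simp
  have hLm2 : Lm ≤ 2 * L := by
    rw [hLm, Real.log_le_iff_le_exp hq, div_le_iff₀ hvf1]
    calc vg = Real.exp (2 * L) * (Real.exp (-(2 * L)) * vg) := by
          rw [← mul_assoc, ← Real.exp_add]; simp
      _ ≤ Real.exp (2 * L) * vf := by gcongr
  have hLm0 : 0 < Lm := by linarith
  -- the rescaled data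
  set f' : ℝ × ℝ → ℝ := fun w => fm (ph j0 m w) with hf'
  set g' : ℝ × ℝ → ℝ := fun w => gm (ph j0 m w) with hg'
  have hf'N : Nice f' := nice_ph j0 m hfI
  have hg'N : Nice g' := nice_ph j0 m hgI
  set P' : ℕ → Set (ℝ × ℝ) := fun i => ph j0 m ⁻¹' (P (j0 + i) ∩ cell j0 m) with hP'
  have hvolf : volume {z | f' z ≠ 0} = ENNReal.ofReal (2 ^ j0) * volume (Function.support fm) :=
    vol_ph j0 m (Function.support fm)
  have hvolg : volume {z | g' z ≠ 0} = ENNReal.ofReal (2 ^ j0) * volume (Function.support gm) :=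
    vol_ph j0 m (Function.support gm)
  have h2j : (0:ℝ) < 2 ^ j0 := by positivity
  have htf : (volume {z | f' z ≠ 0}).toReal = 2 ^ j0 * vf := by
    rw [hvolf, ENNReal.toReal_mul, ENNReal.toReal_ofReal h2j.le]; rfl
  have htg : (volume {z | g' z ≠ 0}).toReal = 2 ^ j0 * vg := by
    rw [hvolg, ENNReal.toReal_mul, ENNReal.toReal_ofReal h2j.le]; rfl
  have hposf : 0 < volume {z | f' z ≠ 0} := by
    rw [pos_iff_ne_zero]
    intro h0
    rw [h0] at htf
    simp only [ENNReal.toReal_zero] at htf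
    have : 0 < 2 ^ j0 * vf := by positivity
    linarith
  have hposg : 0 < volume {z | g' z ≠ 0} := by
    rw [pos_iff_ne_zero]
    intro h0
    rw [h0] at htg
    simp only [ENNReal.toReal_zero] at htg
    have : 0 < 2 ^ j0 * vg := by positivity
    linarith
  have hmemg : ∀ z, g' z ≠ 0 → ph j0 m z ∈ cell j0 m ∧ g (ph j0 m z) ≠ 0 := by
    intro z hz
    have hz' : gm (ph j0 m z) ≠ 0 := hz
    by_cases hc : ph j0 m z ∈ cell j0 m
    · rw [hgm, indicator_of_mem hc] at hz'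
      exact ⟨hc, hz'⟩
    · rw [hgm, indicator_of_notMem hc] at hz'
      exact absurd rfl hz'
  have hmemf : ∀ z, f' z ≠ 0 → ph j0 m z ∈ nbr j0 m ∧ f (ph j0 m z) ≠ 0 := by
    intro z hz
    have hz' : fm (ph j0 m z) ≠ 0 := hz
    by_cases hc : ph j0 m z ∈ nbr j0 m
    · rw [hfm, indicator_of_mem hc] at hz'
      exact ⟨hc, hz'⟩
    · rw [hfm, indicator_of_notMem hc] at hz'
      exact absurd rfl hz'
  have hP'S : PSys (n - j0) P' := by
    obtain ⟨r, hr⟩ := hg'N.supp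
    refine ⟨fun i => (ph j0 m).measurable ((hP.meas _).inter hcm), ⟨r, fun i z hz => ?_⟩,
      fun i hi => ?_, fun z i j k hij hjk hi hk => ?_⟩
    · have hgz : g' z ≠ 0 := by
        show gm (ph j0 m z) ≠ 0
        rw [hgm, indicator_of_mem hz.2]
        exact hPE _ hz.1
      by_contra hc
      apply hgz
      apply hr
      rw [not_and_or, not_le, not_le] at hc
      exact hc.imp le_of_lt le_of_lt
    · rw [hP']
      show ph j0 m ⁻¹' (P (j0 + i) ∩ cell j0 m) = ∅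
      rw [hP.lt (j0 + i) (by omega), empty_inter, preimage_empty]
    · exact ⟨hP.conv (ph j0 m z) (j0 + i) (j0 + j) (j0 + k) (by omega) (by omega) hi.1 hk.1,
        hi.2⟩
  have hP'E : ∀ i, P' i ⊆ {z | g' z ≠ 0} := by
    intro i z hz
    show gm (ph j0 m z) ≠ 0
    rw [hgm, indicator_of_mem hz.2]
    exact hPE _ hz.1
  have hstrip : ∀ z, g' z ≠ 0 → z.1 ∈ Ico (0:ℝ) 1 := by
    intro z hz
    have hc := (hmemg z hz).1
    have hc' : ⌊2 ^ j0 * (ph j0 m z).1⌋ = (m : ℤ) := hc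
    rw [ph_apply] at hc'
    have e1 : (2:ℝ) ^ j0 * ((z.1 + m) / 2 ^ j0) = z.1 + m := by field_simp
    have hc2 : ⌊z.1 + (m:ℝ)⌋ = (m : ℤ) := by
      rw [← e1]; exact hc'
    rw [Int.floor_eq_iff] at hc2
    push_cast at hc2
    exact ⟨by linarith [hc2.1], by linarith [hc2.2]⟩
  have hres := hG (up j0 m u) (up_field j0 m hu) (n - j0) P' f' g' hf'N hg'N
    (fun z => ind_le_one hf1 _ _) (fun z => ind_le_one hg1 _ _)
    (fun z hz => by
      have h3 := hmemf z hz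
      show 1 / 2 ≤ |fm (ph j0 m z)|
      rw [hfm, indicator_of_mem h3.1]
      exact hf2 _ h3.2)
    (fun z hz => by
      have h3 := hmemg z hz
      show 1 / 2 ≤ |gm (ph j0 m z)|
      rw [hgm, indicator_of_mem h3.1]
      exact hg2 _ h3.2)
    hstrip hposf hposg hP'S hP'E Lm
    (by
      rw [htf, htg, hLm]
      congr 1
      field_simp)
    (by linarith)
    (fun x y y' => by
      refine (up_lip j0 m hlip x y y').trans ?_
      gcongr
      refine hj0.trans (Real.exp_le_exp.2 ?_)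
      have : Lm ^ A ≤ (2 * L) ^ A := by gcongr
      linarith)
  rw [Bf_resc κ hu j0 m hf hg hP, htf, htg, abs_mul, abs_of_pos h2j,
    Real.sqrt_mul h2j.le, Real.sqrt_mul h2j.le] at hres
  have h3 : CG * (√(2 ^ j0) * √vf) * (√(2 ^ j0) * √vg) = 2 ^ j0 * (CG * (√vf * √vg)) := by
    calc CG * (√(2 ^ j0) * √vf) * (√(2 ^ j0) * √vg)
        = (√(2 ^ j0) * √(2 ^ j0)) * (CG * (√vf * √vg)) := by ring
      _ = 2 ^ j0 * (CG * (√vf * √vg)) := by rw [Real.mul_self_sqrt h2j.le]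
  rw [h3, mul_assoc] at hres
  have h4 : |Bf κ u n j0 P f g {m}| * Lm ^ B ≤ CG * (√vf * √vg) :=
    le_of_mul_le_mul_left hres h2j
  have h5 : (L / 2) ^ B ≤ Lm ^ B := by gcongr
  have h6 : |Bf κ u n j0 P f g {m}| * (L / 2) ^ B ≤ CG * (√vf * √vg) :=
    (mul_le_mul_of_nonneg_left h5 (abs_nonneg _)).trans h4
  have h7 : CG * 2 ^ B / L ^ B * (√vf * √vg) = CG * (√vf * √vg) / (L / 2) ^ B := by
    rw [div_pow]; field_simp
  rw [h7, le_div_iff₀ (by positivity)]
  exact h6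

end Vale.Agent.P112.H889
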