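import Vale.Agent.P112.H889.TopIn

/-!
# P112: the final summation over the density levels
-/

open MeasureTheory Set Filter Topology
open scoped ENNReal

set_option linter.dupNamespace false

namespace Vale.Agent.P112.H889

open Vale.Agent.P112.T Vale.Agent.P112.F30 Vale.Agent.P112.H694.BO

variable {M : ℕ}

/-! ### Numerical lemmas -/

/-- `σ = (9/10)^(1/4)`. -/
noncomputable def sg : ℝ := √(√(9 / 10))

theorem sg_pos : 0 < sg := by unfold sg; positivity

theorem sg_sq : sg ^ 2 = √(9 / 10) := Real.sq_sqrt (Real.sqrt_nonneg _)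

theorem sg_four : sg ^ 4 = 9 / 10 := by
  have : sg ^ 4 = (sg ^ 2) ^ 2 := by ring
  rw [this, sg_sq, Real.sq_sqrt (by norm_num)]

theorem sg_lt : sg < 1 := by
  by_contra h
  have h2 : (1:ℝ) ≤ sg ^ 4 := one_le_pow₀ (not_lt.1 h)
  rw [sg_four] at h2
  norm_num at h2

theorem sqrt_nine (ν : ℕ) : √((9 / 10 : ℝ) ^ ν) = sg ^ ν * sg ^ ν := by
  rw [← sg_four, ← pow_mul, mul_comm 4 ν, pow_mul]
  have : (sg ^ ν) ^ 4 = (sg ^ ν * sg ^ ν) ^ 2 := by ring
  rw [this, Real.sqrt_sq (by have := sg_pos; positivity)]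

theorem sg_log : Real.log sg ≤ -(1 / 40) := by
  have h1 : Real.log (sg ^ 4) = 4 * Real.log sg := by rw [Real.log_pow]; norm_num
  rw [sg_four] at h1
  have h2 := Real.log_le_sub_one_of_pos (show (0:ℝ) < 9 / 10 by norm_num)
  linarith

theorem sg_pow_le {L : ℝ} (hL : 1 ≤ L) {ν : ℕ} (h : 80 * Real.log L ≤ ν) :
    sg ^ ν ≤ 1 / L ^ 2 := by
  have hL0 : 0 < L := by linarith
  have hlog : 0 ≤ Real.log L := Real.log_nonneg hL
  rw [← Real.exp_log sg_pos, ← Real.exp_nat_mul, one_div, ← Real.exp_log (pow_pos hL0 2),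
    ← Real.exp_neg, Real.log_pow]
  apply Real.exp_le_exp.2
  have := sg_log
  have hν : (0:ℝ) ≤ ν := Nat.cast_nonneg ν
  push_cast
  nlinarith

theorem sum_geo {x : ℝ} (h0 : 0 ≤ x) (h1 : x < 1) (m : ℕ) :
    ∑ ν ∈ Finset.range m, x ^ ν ≤ 1 / (1 - x) := by
  rw [geom_sum_eq h1.ne]
  have h : (x ^ m - 1) / (x - 1) = (1 - x ^ m) / (1 - x) := by
    rw [← neg_sub 1 (x ^ m), ← neg_sub 1 x, neg_div_neg_eq]
  rw [h]
  apply div_le_div_of_nonneg_right _ (by linarith)
  have := pow_nonneg h0 m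
  linarith

theorem min_rpow {t θ : ℝ} (ht : 0 < t) (h0 : 0 ≤ θ) (h1 : θ ≤ 1) : min 1 t ≤ t ^ θ := by
  rcases le_total t 1 with h | h
  · rw [min_eq_right h]
    calc t = t ^ (1:ℝ) := (Real.rpow_one t).symm
      _ ≤ t ^ θ := Real.rpow_le_rpow_of_exponent_ge ht h h1
  · rw [min_eq_left h]
    exact Real.one_le_rpow h h0

/-- The ratio of the last geometric series. -/
noncomputable def qq : ℝ := sg * sg * (2:ℝ) ^ (1 / 16 : ℝ)

theorem qq_pos : 0 ≤ qq := by
  have := sg_pos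
  unfold qq; positivity

theorem qq_lt : qq < 1 := by
  by_contra h
  have h2 : (1:ℝ) ≤ qq ^ 16 := one_le_pow₀ (not_lt.1 h)
  have h3 : qq ^ 16 = (sg ^ 4) ^ 8 * 2 := by
    unfold qq
    rw [mul_pow, ← Real.rpow_natCast (2 ^ (1 / 16 : ℝ)) 16, ← Real.rpow_mul (by norm_num)]
    norm_num
    ring
  rw [h3, sg_four] at h2
  norm_num at h2

theorem exp_decay {x : ℝ} (hx : 0 ≤ x) : Real.exp (-(x / 32)) ≤ 4096 / (1 + x) ^ 2 := by
  have h1 : (1 + x) / 64 ≤ Real.exp (x / 64) := by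
    have := Real.add_one_le_exp (x / 64)
    linarith
  have h2 : ((1 + x) / 64) ^ 2 ≤ Real.exp (x / 32) := by
    calc ((1 + x) / 64) ^ 2 ≤ (Real.exp (x / 64)) ^ 2 := by gcongr
      _ = Real.exp (x / 32) := by rw [← Real.exp_nat_mul]; congr 1; push_cast; ring
  rw [Real.exp_neg, inv_le_comm₀ (Real.exp_pos _) (by positivity)]
  calc (4096 / (1 + x) ^ 2)⁻¹ = ((1 + x) / 64) ^ 2 := by
        rw [inv_div]; ring
    _ ≤ _ := h2

/-- **The final summation**: (R0ν), dense tops, levels and the gain imply 694's restricted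
bound. -/
theorem restr0_of {κ : Ker M} {e : ℝ} (h1 : StFD1 4) (h0 : StR0ν κ) (h2 : StFD2 4)
    (hG : TOP.StG κ e) : Restr0 e 2 κ := by
  obtain ⟨_, -, hFD1⟩ := h1
  obtain ⟨C0, hC0, hR⟩ := h0
  obtain ⟨Cs, hCs, hS⟩ := supp_level (M := M) h2
  obtain ⟨CG, hCG, hGG⟩ := hG 80 3
  have hsg := sg_pos
  have hsl := sg_lt
  set ρ : ℝ := sg * sg with hρ
  have hρ0 : 0 < ρ := by positivity
  have hρ1 : ρ < 1 := by nlinarith
  set K1 : ℝ := √C0 / (1 - ρ) with hK1
  set K2 : ℝ := 81 * CG + √C0 / (1 - sg) with hK2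
  set K3 : ℝ := (√C0 + √Cs * √C0) / (1 - qq) * 4096 with hK3
  have hK1p : 0 ≤ K1 := div_nonneg (Real.sqrt_nonneg _) (by linarith)
  have hK2p : 0 ≤ K2 := add_nonneg (by linarith) (div_nonneg (Real.sqrt_nonneg _) (by linarith))
  have hK3p : 0 ≤ K3 := mul_nonneg (div_nonneg (by positivity) (by linarith [qq_lt])) (by norm_num)
  refine ⟨K1 * (1 + CG) ^ 2 + 4 * K2 + K3, by positivity, ?_⟩
  intro u hu hlip n f g hf hg hf1 hg1 hf2 hg2 hgs hfp hgp
  have hE : MeasurableSet {z | g z ≠ 0} := measurableSet_support hg.meas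
  have hFpos : 0 < volume.real (Function.support f) := real_pos hf hfp
  have hEpos : 0 < volume.real (Function.support g) := real_pos hg hgp
  set VF : ℝ := volume.real (Function.support f) with hVF
  set VE : ℝ := volume.real (Function.support g) with hVE
  set X : ℝ := √VF * √VE with hX
  have hXp : 0 < X := by positivity
  set L : ℝ := Real.log (VE / VF) with hL
  -- the terms
  set F : ℕ → ℝ × ℝ → ℝ := fun ν => κ.FS u g (Pd u {z | g z ≠ 0} 4 n ν) n with hF
  have hmPd : ∀ ν j, MeasurableSet (Pd u {z | g z ≠ 0} 4 n ν j) := fun ν j =>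
    ((hFD1 u hu {z | g z ≠ 0} hE (supp_bdd hg) n ν).1).meas j
  have hmPl : ∀ ν j, MeasurableSet (Plow u {z | g z ≠ 0} 4 n ν j) := fun ν j =>
    (hFD1 u hu {z | g z ≠ 0} hE (supp_bdd hg) n ν).2.2.1 j
  have hFN : ∀ ν, Nice (F ν) := fun ν => κ.FS_nice hu hg (hmPd ν) n
  have hFL2 : ∀ ν, √(∫ z, F ν z ^ 2) ≤ √C0 * (sg ^ ν * sg ^ ν) * √VE := by
    intro ν
    rw [← sqrt_nine, ← Real.sqrt_mul hC0.le, ← Real.sqrt_mul (by positivity)]
    exact Real.sqrt_le_sqrt (hR u hu n ν g hg hg1)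
  have hpow : ∀ ν : ℕ, sg ^ ν * sg ^ ν = ρ ^ ν := fun ν => (mul_pow _ _ _).symm
  have tR : ∀ ν, |∫ z, f z * F ν z| ≤ √C0 * X * ρ ^ ν := by
    intro ν
    refine (bil_f hf (hFN ν) hf1).trans ?_
    calc √VF * √(∫ z, F ν z ^ 2) ≤ √VF * (√C0 * (sg ^ ν * sg ^ ν) * √VE) := by
          gcongr; exact hFL2 ν
      _ = √C0 * X * ρ ^ ν := by rw [hpow, hX]; ring
  have main : ∀ Y : ℝ, (∀ ν1, ∑ ν ∈ Finset.range ν1, |∫ z, f z * F ν z| ≤ Y) →
      |∫ z, Tn κ u n f z * g z| ≤ Y := fun Y hY =>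
    form_le κ hu hf hg ((hFD1 u hu {z | g z ≠ 0} hE (supp_bdd hg) n 0).2.1) hmPl hmPd hY
  have hrp : (1 + |L|) ^ (-2 : ℝ) = 1 / (1 + |L|) ^ 2 := by
    rw [Real.rpow_neg (by positivity), one_div]
    congr 1
    exact_mod_cast Real.rpow_natCast (1 + |L|) 2
  rw [hrp]
  have hfin : ∀ K Y : ℝ, 0 ≤ K → |∫ z, Tn κ u n f z * g z| ≤ K * X / (1 + |L|) ^ 2 →
      K ≤ K1 * (1 + CG) ^ 2 + 4 * K2 + K3 → |∫ z, Tn κ u n f z * g z| ≤
      (K1 * (1 + CG) ^ 2 + 4 * K2 + K3) * X * (1 / (1 + |L|) ^ 2) := by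
    intro K _ _ h hle
    refine h.trans ?_
    rw [mul_one_div]
    gcongr
  -- the three cases
  rcases le_or_gt 0 L with hL0 | hL0
  · rcases lt_or_ge L CG with hLC | hLC
    · -- small `L`
      refine hfin (K1 * (1 + CG) ^ 2) 0 (by positivity) ?_ (by linarith)
      have hb : |∫ z, Tn κ u n f z * g z| ≤ K1 * X := by
        apply main
        intro ν1
        calc ∑ ν ∈ Finset.range ν1, |∫ z, f z * F ν z|
            ≤ ∑ ν ∈ Finset.range ν1, √C0 * X * ρ ^ ν := Finset.sum_le_sum fun ν _ => tR ν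
          _ = √C0 * X * ∑ ν ∈ Finset.range ν1, ρ ^ ν := by rw [Finset.mul_sum]
          _ ≤ √C0 * X * (1 / (1 - ρ)) := by
              gcongr; exact sum_geo hρ0.le hρ1 ν1
          _ = K1 * X := by rw [hK1]; ring
      refine hb.trans ?_
      rw [le_div_iff₀ (by positivity), abs_of_nonneg hL0]
      calc K1 * X * (1 + L) ^ 2 ≤ K1 * X * (1 + CG) ^ 2 := by gcongr
        _ = K1 * (1 + CG) ^ 2 * X := by ring
    · -- large `L`
      have hL1 : 1 ≤ L := hCG.trans hLC
      have hLp : 0 < L := by linarith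
      refine hfin (4 * K2) 0 (by positivity) ?_ (by nlinarith [mul_nonneg hK1p (sq_nonneg (1 + CG))])
      have tG : ∀ ν : ℕ, (ν : ℝ) ≤ 80 * Real.log L →
          |∫ z, f z * F ν z| ≤ CG * X / L ^ 3 := by
        intro ν hν
        rw [le_div_iff₀ (by positivity)]
        have := hGG u hu hlip n ν f g hf hg hf1 hg1 hf2 hg2 hgs hfp hgp L rfl hLC
          (by exact_mod_cast hν)
        calc |∫ z, f z * F ν z| * L ^ 3 ≤ CG * √VF * √VE := this
          _ = CG * X := by rw [hX]; ring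
      have hb : |∫ z, Tn κ u n f z * g z| ≤ K2 * X / L ^ 2 := by
        apply main
        intro ν1
        have hterm : ∀ ν ∈ Finset.range ν1, |∫ z, f z * F ν z| ≤
            (if (ν : ℝ) ≤ 80 * Real.log L then CG * X / L ^ 3 else 0) +
              √C0 * X / L ^ 2 * sg ^ ν := by
          intro ν _
          by_cases hν : (ν : ℝ) ≤ 80 * Real.log L
          · rw [if_pos hν]
            have : 0 ≤ √C0 * X / L ^ 2 * sg ^ ν := by positivity
            linarith [tG ν hν]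
          · rw [if_neg hν, zero_add]
            refine (tR ν).trans ?_
            have hs := sg_pow_le hL1 (not_le.1 hν).le
            calc √C0 * X * ρ ^ ν = √C0 * X * sg ^ ν * sg ^ ν := by rw [← hpow]; ring
              _ ≤ √C0 * X * (1 / L ^ 2) * sg ^ ν := by gcongr
              _ = √C0 * X / L ^ 2 * sg ^ ν := by ring
        refine (Finset.sum_le_sum hterm).trans ?_
        rw [Finset.sum_add_distrib, ← Finset.mul_sum, ← Finset.sum_filter, Finset.sum_const,
          nsmul_eq_mul]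
        have hcard : (((Finset.range ν1).filter fun ν : ℕ => (ν : ℝ) ≤ 80 * Real.log L).card : ℝ) ≤
            81 * L := by
          have hsub : ((Finset.range ν1).filter fun ν : ℕ => (ν : ℝ) ≤ 80 * Real.log L) ⊆
              Finset.range (⌊80 * Real.log L⌋₊ + 1) := by
            intro ν hν
            rw [Finset.mem_filter] at hν
            rw [Finset.mem_range]
            exact Nat.lt_succ_of_le (Nat.le_floor hν.2)
          have h1 := Finset.card_le_card hsub
          rw [Finset.card_range] at h1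
          have h2 : ((⌊80 * Real.log L⌋₊ : ℕ) : ℝ) ≤ 80 * Real.log L :=
            Nat.floor_le (by have := Real.log_nonneg hL1; positivity)
          have h3 : Real.log L ≤ L - 1 := Real.log_le_sub_one_of_pos hLp
          calc (((Finset.range ν1).filter fun ν : ℕ => (ν : ℝ) ≤ 80 * Real.log L).card : ℝ)
              ≤ ((⌊80 * Real.log L⌋₊ + 1 : ℕ) : ℝ) := by exact_mod_cast h1
            _ = (⌊80 * Real.log L⌋₊ : ℝ) + 1 := by push_cast; ring
            _ ≤ 81 * L := by linarith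
        calc (((Finset.range ν1).filter fun ν : ℕ => (ν : ℝ) ≤ 80 * Real.log L).card : ℝ) *
              (CG * X / L ^ 3) + √C0 * X / L ^ 2 * ∑ ν ∈ Finset.range ν1, sg ^ ν
            ≤ 81 * L * (CG * X / L ^ 3) + √C0 * X / L ^ 2 * (1 / (1 - sg)) := by
              gcongr
              exact sum_geo hsg.le hsl ν1
          _ = K2 * X / L ^ 2 := by
              rw [hK2]
              field_simp
      refine hb.trans ?_
      rw [abs_of_nonneg hL0, div_le_div_iff₀ (by positivity) (by positivity)]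
      have h4 : (1 + L) ^ 2 ≤ 4 * L ^ 2 := by nlinarith
      calc K2 * X * (1 + L) ^ 2 ≤ K2 * X * (4 * L ^ 2) := by gcongr
        _ = 4 * K2 * X * L ^ 2 := by ring
  · -- negative `L`
    refine hfin K3 0 hK3p ?_ (by nlinarith [mul_nonneg hK1p (sq_nonneg (1 + CG))])
    set r : ℝ := √(VE / VF) with hr
    have hrp0 : 0 < r := by positivity
    have hrX : r * X = VE := by
      rw [hr, hX, Real.sqrt_div hEpos.le]
      have : √VF ≠ 0 := by positivity
      field_simp
      exact Real.sq_sqrt hEpos.le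
    have tS : ∀ ν, |∫ z, f z * F ν z| ≤ √Cs * √C0 * X * ρ ^ ν * (2 ^ ν * r) := by
      intro ν
      have h3 := bil_Φ hf (hFN ν) hf1 (W := Cs * 4 ^ ν * VE) (by positivity)
        (hS κ u hu g hg n ν)
      refine h3.trans ?_
      have h4 : √(Cs * 4 ^ ν * VE) = √Cs * 2 ^ ν * √VE := by
        have : (4:ℝ) ^ ν = (2 ^ ν) ^ 2 := by rw [← pow_mul, mul_comm, pow_mul]; norm_num
        rw [this, Real.sqrt_mul (by positivity), Real.sqrt_mul hCs, Real.sqrt_sq (by positivity)]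
      rw [h4]
      calc √Cs * 2 ^ ν * √VE * √(∫ z, F ν z ^ 2)
          ≤ √Cs * 2 ^ ν * √VE * (√C0 * (sg ^ ν * sg ^ ν) * √VE) := by
            gcongr; exact hFL2 ν
        _ = √Cs * √C0 * ρ ^ ν * 2 ^ ν * (√VE * √VE) := by rw [hpow]; ring
        _ = √Cs * √C0 * X * ρ ^ ν * (2 ^ ν * r) := by
            rw [Real.mul_self_sqrt hEpos.le, ← hrX]; ring
    have tM : ∀ ν, |∫ z, f z * F ν z| ≤
        (√C0 + √Cs * √C0) * X * r ^ (1 / 16 : ℝ) * qq ^ ν := by
      intro ν
      have hA : |∫ z, f z * F ν z| ≤ (√C0 + √Cs * √C0) * X * ρ ^ ν * 1 := by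
        refine (tR ν).trans ?_
        rw [mul_one]
        gcongr
        have : 0 ≤ √Cs * √C0 := by positivity
        linarith
      have hB : |∫ z, f z * F ν z| ≤ (√C0 + √Cs * √C0) * X * ρ ^ ν * (2 ^ ν * r) := by
        refine (tS ν).trans ?_
        gcongr
        have : 0 ≤ √C0 := by positivity
        linarith
      have hm : |∫ z, f z * F ν z| ≤ (√C0 + √Cs * √C0) * X * ρ ^ ν * min 1 (2 ^ ν * r) := by
        rcases le_total 1 (2 ^ ν * r) with h | h
        · rw [min_eq_left h]; exact hA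
        · rw [min_eq_right h]; exact hB
      refine hm.trans ?_
      have hmr := min_rpow (t := 2 ^ ν * r) (θ := 1 / 16) (by positivity) (by norm_num)
        (by norm_num)
      have hsplit : (2 ^ ν * r : ℝ) ^ (1 / 16 : ℝ) =
          ((2:ℝ) ^ (1 / 16 : ℝ)) ^ ν * r ^ (1 / 16 : ℝ) := by
        rw [Real.mul_rpow (by positivity) hrp0.le]
        congr 1
        rw [← Real.rpow_natCast 2 ν, ← Real.rpow_mul (by norm_num), mul_comm,
          Real.rpow_mul (by norm_num), Real.rpow_natCast]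
      calc (√C0 + √Cs * √C0) * X * ρ ^ ν * min 1 (2 ^ ν * r)
          ≤ (√C0 + √Cs * √C0) * X * ρ ^ ν * (2 ^ ν * r : ℝ) ^ (1 / 16 : ℝ) := by gcongr
        _ = (√C0 + √Cs * √C0) * X * r ^ (1 / 16 : ℝ) * qq ^ ν := by
            rw [hsplit]
            unfold qq
            rw [← hρ, mul_pow]
            ring
    have hb : |∫ z, Tn κ u n f z * g z| ≤
        (√C0 + √Cs * √C0) * X * r ^ (1 / 16 : ℝ) * (1 / (1 - qq)) := by
      apply main
      intro ν1
      calc ∑ ν ∈ Finset.range ν1, |∫ z, f z * F ν z|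
          ≤ ∑ ν ∈ Finset.range ν1, (√C0 + √Cs * √C0) * X * r ^ (1 / 16 : ℝ) * qq ^ ν :=
            Finset.sum_le_sum fun ν _ => tM ν
        _ = (√C0 + √Cs * √C0) * X * r ^ (1 / 16 : ℝ) * ∑ ν ∈ Finset.range ν1, qq ^ ν := by
            rw [Finset.mul_sum]
        _ ≤ _ := by
            gcongr
            exact sum_geo qq_pos qq_lt ν1
    have hrexp : r ^ (1 / 16 : ℝ) ≤ 4096 / (1 + |L|) ^ 2 := by
      have hq : 0 < VE / VF := div_pos hEpos hFpos
      have : r ^ (1 / 16 : ℝ) = Real.exp (-(|L| / 32)) := by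
        rw [hr, Real.sqrt_eq_rpow, ← Real.rpow_mul hq.le, abs_of_neg hL0, hL,
          Real.rpow_def_of_pos hq]
        congr 1
        ring
      rw [this]
      exact exp_decay (abs_nonneg L)
    refine hb.trans ?_
    have hqq := qq_lt
    calc (√C0 + √Cs * √C0) * X * r ^ (1 / 16 : ℝ) * (1 / (1 - qq))
        ≤ (√C0 + √Cs * √C0) * X * (4096 / (1 + |L|) ^ 2) * (1 / (1 - qq)) := by
          have : 0 ≤ 1 / (1 - qq) := div_nonneg zero_le_one (by linarith)
          gcongr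
      _ = K3 * X / (1 + |L|) ^ 2 := by rw [hK3]; ring

end Vale.Agent.P112.H889
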