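import Vale.Agent.P112.H889.Comp
import Vale.Agent.P112.Top.Defs

/-!
# P112: inputs of the final summation
-/

open MeasureTheory Set Filter Topology
open scoped ENNReal

set_option linter.dupNamespace false

namespace Vale.Agent.P112.H889

open Vale.Agent.P112.T Vale.Agent.P112.F30 Vale.Agent.P112.H694.BO

variable {M : ℕ}

/-- The support of one density level. -/
theorem stSup (hD : StFD2 4) (κ : Ker M) : TOP.StSup κ := by
  obtain ⟨C, hC, h⟩ := supp_level (M := M) hD
  refine ⟨C + 1, 2, by positivity, fun u hu n ν g hg => ?_⟩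
  refine (h κ u hu g hg n ν).trans ?_
  have hvol : ENNReal.ofReal (volume.real (Function.support g)) = volume {z | g z ≠ 0} :=
    ENNReal.ofReal_toReal (supp_fin hg).ne
  rw [← hvol, ← ENNReal.ofReal_mul (by positivity)]
  apply ENNReal.ofReal_le_ofReal
  have h4 : (4 : ℝ) ^ ν = 2 ^ (2 * ν) := by rw [pow_mul]; norm_num
  rw [h4]
  gcongr
  linarith

end Vale.Agent.P112.H889
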